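import Vale.Agent.P281.H969.D.Conv
import Mathlib.Analysis.Complex.Liouville
import Mathlib.Analysis.SpecialFunctions.Complex.Analytic

/-!
# P281, project T-Δ (helper969): the third logarithmic derivative is canonical; D4 for fibres
-/

open Set Filter Metric Complex Real MeasureTheory
open scoped Topology ENNReal ComplexConjugate ContDiff

noncomputable section

namespace Vale.Agent.P281.H969.D

section

variable {V : Type} [NormedAddCommGroup V] [NormedSpace ℂ V]

/-- Analytic functions with constant real part. -/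
theorem eventually_const' {D : V → ℂ} {v : V} (hD : AnalyticAt ℂ D v) {c : ℝ}
    (h : ∀ᶠ t in 𝓝 v, (D t).re = c) : ∀ᶠ t in 𝓝 v, D t = D v := by
  rcases hD.eventually_constant_or_nhds_le_map_nhds with h1 | h1
  · exact h1
  · exfalso
    have h2 : ∀ᶠ w in 𝓝 (D v), w.re = c := h1 (Filter.eventually_map.2 h)
    have h3 : Tendsto (fun ε : ℝ => D v + ε) (𝓝 0) (𝓝 (D v)) := by
      have : Continuous fun ε : ℝ => D v + (ε : ℂ) := by fun_prop
      simpa using this.tendsto 0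
    have h4 := h3.eventually h2
    obtain ⟨ε, hε, hball⟩ := Metric.eventually_nhds_iff.1 h4
    have h5 := hball (y := ε / 2) (by rw [dist_zero_right, Real.norm_of_nonneg] <;> linarith)
    have h6 := hball (y := 0) (by simpa using hε)
    simp at h5 h6
    linarith

/-- Local logarithms. -/
theorem exists_log {h : V → ℂ} {z : V} (hh : AnalyticAt ℂ h z) (h0 : h z ≠ 0) :
    ∃ l : V → ℂ, AnalyticAt ℂ l z ∧ ∀ᶠ w in 𝓝 z, Complex.exp (l w) = h w := by
  refine ⟨fun w => Complex.log (h w / h z) + Complex.log (h z),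
    ((hh.div analyticAt_const h0).clog (by
      show h z / h z ∈ Complex.slitPlane
      rw [div_self h0]
      exact Complex.one_mem_slitPlane)).add analyticAt_const, ?_⟩
  filter_upwards [hh.continuousAt.eventually_ne h0] with w hw
  rw [Complex.exp_add, Complex.exp_log (div_ne_zero hw h0), Complex.exp_log h0, div_mul_cancel₀ _ h0]

/-- **Liouville**: periodic functions analytic across `Z` are constant. -/
theorem liou {n : ℕ} {F : Type} [NormedAddCommGroup F] [NormedSpace ℂ F] [CompleteSpace F]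
    (e : (Fin n → ℝ) ≃L[ℝ] V) {Z : Set V} (hZ : ∀ w, ¬ ∀ᶠ w' in 𝓝 w, w' ∈ Z) {U : V → F}
    (hloc : ∀ z, ∃ R : V → F, AnalyticAt ℂ R z ∧ ∀ᶠ w in 𝓝 z, w ∉ Z → U w = R w)
    (hper : ∀ z ∉ Z, ∀ k : Fin n → ℤ, U (z + e fun i => (k i : ℝ)) = U z)
    (hZper : ∀ z ∉ Z, ∀ k : Fin n → ℤ, (z + e fun i => (k i : ℝ)) ∉ Z) :
    ∃ c, ∀ z ∉ Z, U z = c := by
  choose R hRa hR using hloc
  have hZ' : ∀ w, ∃ᶠ w' in 𝓝 w, w' ∉ Z := fun w => Filter.not_eventually.1 (hZ w)
  have hloc : ∀ z, ∀ᶠ w in 𝓝 z, R w w = R z w := by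
    intro z
    filter_upwards [eventually_eventually_nhds.2 (hR z), (hRa z).eventually_analyticAt] with w h1 h2
    refine tendsto_nhds_unique_of_frequently_eq (hRa w).continuousAt h2.continuousAt
      ((hZ' w).mp ?_)
    filter_upwards [h1, hR w] with u h3 h4 hu
    rw [← h3 hu, ← h4 hu]
  have han : ∀ z, AnalyticAt ℂ (fun w => R w w) z := fun z =>
    (hRa z).congr (Filter.EventuallyEq.symm (hloc z))
  have hP : ∀ z (k : Fin n → ℤ), R (z + e fun i => (k i : ℝ)) (z + e fun i => (k i : ℝ)) = R z z := by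
    intro z k
    set g := e fun i => (k i : ℝ) with hg
    have h1 : Tendsto (fun u => u + g) (𝓝 z) (𝓝 (z + g)) :=
      (continuous_id.add continuous_const).tendsto z
    refine tendsto_nhds_unique_of_frequently_eq ((hRa (z + g)).continuousAt.tendsto.comp h1)
      (hRa z).continuousAt ((hZ' z).mp ?_)
    filter_upwards [h1.eventually (hR (z + g)), hR z] with u h3 h4 hu
    show R (z + g) (u + g) = R z u
    rw [← h3 (hZper u hu k), ← h4 hu, hper u hu k]
  have hb : Bornology.IsBounded (range fun w => R w w) := by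
    have h1 : (range fun w => R w w) ⊆ (fun x => R (e x) (e x)) '' Icc (0 : Fin n → ℝ) 1 := by
      rintro _ ⟨v, rfl⟩
      set x := e.symm v with hx
      refine ⟨fun i => Int.fract (x i), ⟨fun i => Int.fract_nonneg _,
        fun i => (Int.fract_lt_one _).le⟩, ?_⟩
      have h3 : v = e (fun i => Int.fract (x i)) + e (fun i => ((⌊x i⌋ : ℤ) : ℝ)) := by
        rw [← map_add]
        have h4 : ((fun i => Int.fract (x i)) + fun i => ((⌊x i⌋ : ℤ) : ℝ)) = x := by
          ext i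
          exact Int.fract_add_floor _
        rw [h4, hx, ContinuousLinearEquiv.apply_symm_apply]
      show R (e fun i => Int.fract (x i)) (e fun i => Int.fract (x i)) = R v v
      rw [h3, hP]
    have h2 : Continuous fun x => R (e x) (e x) := by
      have h4 : Continuous fun w => R w w := continuous_iff_continuousAt.2 fun z =>
        (han z).continuousAt
      exact h4.comp e.continuous
    exact ((isCompact_Icc.image h2).isBounded).subset h1
  have hd : Differentiable ℂ fun w => R w w := fun z => (han z).differentiableAt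
  refine ⟨R 0 0, fun z hz => ?_⟩
  rw [(hR z).self_of_nhds hz]
  exact hd.apply_eq_apply_of_bounded hb z 0

theorem d3_eq {s : V → ℂ} {v : V} (hs : AnalyticAt ℂ s v) (a b c : V) :
    d3 s v a b c = fderiv ℂ (fderiv ℂ (fderiv ℂ s)) v a b c := by
  have h1 : ∀ᶠ z in 𝓝 v, fderiv ℂ (fun y => fderiv ℂ s y c) z b =
      fderiv ℂ (fderiv ℂ s) z b c := by
    filter_upwards [hs.eventually_analyticAt] with z hz
    have h2 : HasFDerivAt (fun y => fderiv ℂ s y c)
        ((ContinuousLinearMap.apply ℂ ℂ c).comp (fderiv ℂ (fderiv ℂ s) z)) z :=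
      (ContinuousLinearMap.apply ℂ ℂ c).hasFDerivAt.comp z hz.fderiv.differentiableAt.hasFDerivAt
    rw [h2.fderiv]
    rfl
  have h3 : (fun z => fderiv ℂ (fun y => fderiv ℂ s y c) z b) =ᶠ[𝓝 v]
      fun z => fderiv ℂ (fderiv ℂ s) z b c := h1
  rw [d3, h3.fderiv_eq]
  have h6 := (ContinuousLinearMap.apply ℂ (V →L[ℂ] ℂ) b).hasFDerivAt
    (x := fderiv ℂ (fderiv ℂ s) v)
  have h5 : HasFDerivAt (fun z => fderiv ℂ (fderiv ℂ s) z b)
      ((ContinuousLinearMap.apply ℂ (V →L[ℂ] ℂ) b).comp (fderiv ℂ (fderiv ℂ (fderiv ℂ s)) v)) v :=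
    HasFDerivAt.comp (g := fun T : V →L[ℂ] V →L[ℂ] ℂ => T b) (f := fderiv ℂ (fderiv ℂ s)) v h6
      hs.fderiv.fderiv.differentiableAt.hasFDerivAt
  have h4 : HasFDerivAt (fun z => fderiv ℂ (fderiv ℂ s) z b c)
      ((ContinuousLinearMap.apply ℂ ℂ c).comp ((ContinuousLinearMap.apply ℂ (V →L[ℂ] ℂ) b).comp
        (fderiv ℂ (fderiv ℂ (fderiv ℂ s)) v))) v :=
    (ContinuousLinearMap.apply ℂ ℂ c).hasFDerivAt.comp v h5
  rw [h4.fderiv]
  rfl

end

variable {d n : ℕ} {V : Type} [NormedAddCommGroup V] [InnerProductSpace ℂ V]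
  [FiniteDimensional ℂ V]

/-- The data on one fibre: local equations `Le` of the divisor `Z`, the quasi-periodic metric
`lam`, the second logarithmic derivative `wf`. -/
structure FibD (e : (Fin n → ℝ) ≃L[ℝ] V) (Z : Set V) (Le : V → (V → ℂ) → Prop)
    (S : V → V → ℂ) (lam : V → ℝ) (wf : V → V →L[ℂ] V →L[ℂ] ℂ) : Prop where
  ex : ∀ z, ∃ h, Le z h
  an : ∀ z h, Le z h → AnalyticAt ℂ h z
  zero : ∀ z h, Le z h → ∀ᶠ w in 𝓝 z, (h w = 0 ↔ w ∈ Z)
  dense : ∀ z, ¬ ∀ᶠ w in 𝓝 z, w ∈ Z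
  herm : IsHerm S
  cont : Continuous lam
  per : ∀ z (k : Fin n → ℤ), lam (z + e fun i => (k i : ℝ)) = lam z
  loc : ∀ z h, Le z h → ∃ s : V → ℂ, AnalyticAt ℂ s z ∧
    ∀ᶠ w in 𝓝 z, lam w = ‖Complex.exp (s w) * h w‖ ^ 2 * Real.exp (-(S w w).re)
  wper : ∀ z ∉ Z, ∀ k : Fin n → ℤ, wf (z + e fun i => (k i : ℝ)) = wf z
  wloc : ∀ z h, Le z h → ∃ A : V → V →L[ℂ] V →L[ℂ] ℂ, AnalyticAt ℂ A z ∧
    ∀ᶠ w in 𝓝 z, w ∉ Z → wf w = fderiv ℂ (fun u => (h u)⁻¹ • fderiv ℂ h u) w + A w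

section FibD

variable {e : (Fin n → ℝ) ≃L[ℝ] V} {Z : Set V} {Le : V → (V → ℂ) → Prop}
  {S : V → V → ℂ} {lam : V → ℝ} {wf : V → V →L[ℂ] V →L[ℂ] ℂ}

theorem FibD.lam_eq_zero (hF : FibD e Z Le S lam wf) (z : V) : lam z = 0 ↔ z ∈ Z := by
  obtain ⟨h, hh⟩ := hF.ex z
  obtain ⟨s, -, hs⟩ := hF.loc z h hh
  rw [hs.self_of_nhds, ← (hF.zero z h hh).self_of_nhds]
  constructor
  · intro h1
    rcases mul_eq_zero.1 h1 with h2 | h2
    · have h3 := norm_eq_zero.1 (pow_eq_zero_iff two_ne_zero |>.1 h2)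
      exact (mul_eq_zero.1 h3).resolve_left (Complex.exp_ne_zero _)
    · exact absurd h2 (Real.exp_pos _).ne'
  · intro h1
    rw [h1]
    simp

theorem FibD.isThetaD (hF : FibD e Z Le S lam wf) : IsThetaD e S lam where
  herm := hF.herm
  cont := hF.cont
  nonneg := fun v => by
    obtain ⟨h, hh⟩ := hF.ex v
    obtain ⟨s, -, hs⟩ := hF.loc v h hh
    rw [hs.self_of_nhds]
    positivity
  ne := by
    have h1 := hF.dense 0
    rw [Filter.not_eventually] at h1
    obtain ⟨z, hz⟩ := h1.exists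
    exact ⟨z, fun h2 => hz ((hF.lam_eq_zero z).1 h2)⟩
  per := hF.per
  loc := fun z => by
    obtain ⟨h, hh⟩ := hF.ex z
    obtain ⟨s, hs, hs'⟩ := hF.loc z h hh
    exact ⟨fun w => Complex.exp (s w) * h w, hs.cexp.mul (hF.an z h hh), hs'⟩

theorem FibD.off (hF : FibD e Z Le S lam wf) {z : V} (hz : z ∉ Z) : ∀ᶠ w in 𝓝 z, w ∉ Z := by
  have h1 : lam z ≠ 0 := fun h2 => hz ((hF.lam_eq_zero z).1 h2)
  filter_upwards [hF.cont.continuousAt.eventually_ne h1] with w hw h2
  exact hw ((hF.lam_eq_zero w).2 h2)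

theorem FibD.zper (hF : FibD e Z Le S lam wf) {z : V} (hz : z ∉ Z) (k : Fin n → ℤ) :
    (z + e fun i => (k i : ℝ)) ∉ Z := by
  rw [← hF.lam_eq_zero, hF.per, hF.lam_eq_zero]
  exact hz

/-- `s` is a local logarithm of the theta function. -/
def IsLg (S : V → V → ℂ) (lam : V → ℝ) (s : V → ℂ) (z : V) : Prop :=
  AnalyticAt ℂ s z ∧ ∀ᶠ w in 𝓝 z, lam w = Real.exp (2 * (s w).re - (S w w).re)

omit [FiniteDimensional ℂ V] in
theorem IsLg.eventually {s : V → ℂ} {z : V} (h : IsLg S lam s z) :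
    ∀ᶠ w in 𝓝 z, IsLg S lam s w := by
  filter_upwards [h.1.eventually_analyticAt, eventually_eventually_nhds.2 h.2] with w h1 h2
  exact ⟨h1, h2⟩

omit [FiniteDimensional ℂ V] in
/-- The second derivative does not depend on the logarithm. -/
theorem IsLg.d2_eq {s s' : V → ℂ} {z : V} (h : IsLg S lam s z) (h' : IsLg S lam s' z) :
    fderiv ℂ (fderiv ℂ s) z = fderiv ℂ (fderiv ℂ s') z := by
  have h1 : ∀ᶠ w in 𝓝 z, (s w - s' w).re = 0 := by
    filter_upwards [h.2, h'.2] with w hw hw'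
    rw [hw, Real.exp_eq_exp] at hw'
    rw [Complex.sub_re]
    linarith
  have h2 := eventually_const' (h.1.sub h'.1) (c := 0) h1
  have h3 : s =ᶠ[𝓝 z] fun w => s' w + (s z - s' z) := by
    filter_upwards [h2] with w hw
    have hw' : s w - s' w = s z - s' z := hw
    rw [← hw']
    ring
  have h4 : fderiv ℂ s =ᶠ[𝓝 z] fderiv ℂ s' := by
    refine h3.fderiv.trans ?_
    filter_upwards with w
    exact fderiv_add_const _
  exact h4.fderiv_eq

/-- Logarithms near the points near `z`, in terms of the local equation at `z`. -/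
theorem isLg_of {h s : V → ℂ} {z : V} (hh : AnalyticAt ℂ h z) (hs : AnalyticAt ℂ s z)
    (hlam : ∀ᶠ w in 𝓝 z, lam w = ‖Complex.exp (s w) * h w‖ ^ 2 * Real.exp (-(S w w).re))
    (h0 : h z ≠ 0) : ∃ s', IsLg S lam s' z ∧ fderiv ℂ (fderiv ℂ s') z =
      fderiv ℂ (fderiv ℂ s) z + fderiv ℂ (fun u => (h u)⁻¹ • fderiv ℂ h u) z := by
  obtain ⟨l, hl, hle⟩ := exists_log hh h0
  refine ⟨fun w => s w + l w, ⟨hs.add hl, ?_⟩, ?_⟩
  · filter_upwards [hlam, hle] with w h1 h2
    rw [h1, ← h2, ← Complex.exp_add, Complex.norm_exp, ← Real.exp_nat_mul, ← Real.exp_add]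
    congr 1
  · have h1 : fderiv ℂ (fun w => s w + l w) =ᶠ[𝓝 z]
        fun w => fderiv ℂ s w + (h w)⁻¹ • fderiv ℂ h w := by
      filter_upwards [hs.eventually_analyticAt, hl.eventually_analyticAt,
        eventually_eventually_nhds.2 hle] with w h1 h2 h3
      rw [fderiv_fun_add h1.differentiableAt h2.differentiableAt]
      congr 1
      have h4 : h =ᶠ[𝓝 w] fun u => Complex.exp (l u) := by
        filter_upwards [h3] with u hu
        exact hu.symm
      have h5 : fderiv ℂ h w = Complex.exp (l w) • fderiv ℂ l w := by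
        rw [h4.fderiv_eq]
        exact (h2.differentiableAt.hasFDerivAt.cexp).fderiv
      rw [h5, ← h3.self_of_nhds, smul_smul, inv_mul_cancel₀ (Complex.exp_ne_zero _), one_smul]
    rw [h1.fderiv_eq]
    have h2 : AnalyticAt ℂ (fun w => (h w)⁻¹ • fderiv ℂ h w) z := (hh.inv h0).smul hh.fderiv
    exact fderiv_fun_add hs.fderiv.differentiableAt h2.differentiableAt

theorem FibD.exists_lg (hF : FibD e Z Le S lam wf) {z : V} (hz : z ∉ Z) :
    ∃ s, IsLg S lam s z := by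
  obtain ⟨h, hh⟩ := hF.ex z
  obtain ⟨s, hs, hs'⟩ := hF.loc z h hh
  have h0 : h z ≠ 0 := fun h1 => hz ((hF.zero z h hh).self_of_nhds.1 h1)
  obtain ⟨s', h1, -⟩ := isLg_of (hF.an z h hh) hs hs' h0
  exact ⟨s', h1⟩

/-- **The link.** -/
theorem FibD.link (hF : FibD e Z Le S lam wf) {z : V} (hz : z ∉ Z) {s : V → ℂ}
    (hs : IsLg S lam s z) (a b c : V) : fderiv ℂ wf z a b c = d3 s z a b c := by
  classical
  -- the second derivative of the logarithms
  set g : V → V →L[ℂ] V →L[ℂ] ℂ := fun w =>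
    if hw : w ∉ Z then fderiv ℂ (fderiv ℂ (hF.exists_lg hw).choose) w else 0 with hg
  have hgeq : ∀ w, w ∉ Z → ∀ s, IsLg S lam s w → g w = fderiv ℂ (fderiv ℂ s) w := by
    intro w hw s hs
    rw [hg]
    simp only [dif_pos hw]
    exact (hF.exists_lg hw).choose_spec.d2_eq hs
  obtain ⟨C, hC⟩ := liou e hF.dense (U := fun w => wf w - g w) (by
    intro z
    obtain ⟨h, hh⟩ := hF.ex z
    obtain ⟨s, hs, hs'⟩ := hF.loc z h hh
    obtain ⟨A, hA, hA'⟩ := hF.wloc z h hh
    refine ⟨fun w => A w - fderiv ℂ (fderiv ℂ s) w, hA.sub hs.fderiv.fderiv, ?_⟩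
    filter_upwards [hA', hs.eventually_analyticAt, (hF.an z h hh).eventually_analyticAt,
      hF.zero z h hh, eventually_eventually_nhds.2 hs'] with w h1 h2 h3 h4 h5 hw
    obtain ⟨s', h6, h7⟩ := isLg_of h3 h2 h5 (fun h0 => hw (h4.1 h0))
    show wf w - g w = _
    rw [h1 hw, hgeq w hw s' h6, h7]
    abel) (by
    intro w hw k
    set γ := e fun i => (k i : ℝ) with hγ
    show wf (w + γ) - g (w + γ) = wf w - g w
    rw [hF.wper w hw k]
    congr 1
    obtain ⟨s₁, hs₁⟩ := hF.exists_lg (hF.zper hw k)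
    rw [hgeq _ (hF.zper hw k) s₁ hs₁]
    let l : V →L[ℂ] ℂ := LinearMap.toContinuousLinearMap
      { toFun := fun v => S v γ
        map_add' := fun v v' => hF.herm.add v v' γ
        map_smul' := fun c v => hF.herm.smul c v γ }
    have hl : ∀ v, l v = S v γ := fun v => rfl
    have htr : Tendsto (fun u => u + γ) (𝓝 w) (𝓝 (w + γ)) :=
      (continuous_id.add continuous_const).tendsto w
    have hsa : AnalyticAt ℂ (fun u => s₁ (u + γ)) w := by
      have h1 : AnalyticAt ℂ (fun u : V => u + γ) w := analyticAt_id.add analyticAt_const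
      exact AnalyticAt.fun_comp (g := s₁) (f := fun u => u + γ) hs₁.1 h1
    have h1 : IsLg S lam (fun u => s₁ (u + γ) - l u - S γ γ / 2) w := by
      refine ⟨(hsa.sub (l.analyticAt w)).sub analyticAt_const, ?_⟩
      filter_upwards [htr.eventually hs₁.2] with u hu
      have h2 : lam (u + γ) = lam u := hF.per u k
      rw [← h2, hu]
      congr 1
      have h3 : S (u + γ) (u + γ) = S u u + S u γ + (starRingEnd ℂ) (S u γ) + S γ γ := by
        rw [hF.herm.add, hF.herm.symm (u + γ) u, hF.herm.symm (u + γ) γ, hF.herm.add,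
          hF.herm.add, map_add, map_add, ← hF.herm.symm u u, ← hF.herm.symm γ u,
          ← hF.herm.symm u γ, ← hF.herm.symm γ γ, hF.herm.symm u γ]
        ring
      rw [h3, hl]
      simp only [Complex.sub_re, Complex.add_re, Complex.conj_re]
      have h4 : (S γ γ / 2).re = (S γ γ).re / 2 := by
        rw [Complex.div_ofNat_re]
      rw [h4]
      ring
    rw [hgeq w hw _ h1]
    have h2 : fderiv ℂ (fun u => s₁ (u + γ) - l u - S γ γ / 2) =ᶠ[𝓝 w]
        fun u => fderiv ℂ s₁ (u + γ) - l := by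
      filter_upwards [hsa.eventually_analyticAt] with u hu
      rw [fderiv_sub_const, fderiv_fun_sub hu.differentiableAt l.differentiableAt,
        fderiv_comp_add_right, l.fderiv]
    rw [h2.fderiv_eq, fderiv_sub_const, fderiv_comp_add_right]) (fun w hw k => hF.zper hw k)
  have h1 : wf =ᶠ[𝓝 z] fun w => fderiv ℂ (fderiv ℂ s) w + C := by
    filter_upwards [hF.off hz, hs.eventually] with w h2 h3
    rw [← hgeq w h2 s h3, ← hC w h2]
    abel
  have h2 : HasFDerivAt (fun w => fderiv ℂ (fderiv ℂ s) w + C)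
      (fderiv ℂ (fderiv ℂ (fderiv ℂ s)) z) z :=
    (hs.1.fderiv.fderiv.differentiableAt.hasFDerivAt).add_const C
  rw [h1.fderiv_eq, h2.fderiv, d3_eq hs.1]

/-- **The bound** on slices, in terms of the data on a fibre. -/
theorem bnd_core (b : OrthonormalBasis (Fin d) ℂ V) (Q : (Fin n → ℝ) → (Fin n → ℝ) → ℝ)
    {τ r : ℝ} (A : ℝ) (hτ : 0 ≤ τ) (hr : 0 < r) :
    ∃ B : ℝ, 0 ≤ B ∧ ∀ (e : (Fin n → ℝ) ≃L[ℝ] V) (Z : Set V) (Le : V → (V → ℂ) → Prop)
      (S : V → V → ℂ) (lam : V → ℝ) (wf : V → V →L[ℂ] V →L[ℂ] ℂ) (G : V ≃L[ℂ] V)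
      (h : (Fin d → ℂ) → V) (v₀ : Fin d → ℂ), FibD e Z Le S lam wf →
      (∀ x x', (inner ℂ (G (e x)) (G (e x'))).im = Q x x') →
      (∀ w, (S w w).re ≤ τ * ‖G w‖ ^ 2) → DifferentiableOn ℂ h (ball v₀ r) →
      (∀ v ∈ ball v₀ (r / 2), ‖fderiv ℂ (fun u => G (h u)) v‖ ≤ A) →
      (∀ v ∈ ball v₀ r, ∀ v' ∈ ball v₀ r, ∀ m : Fin n → ℤ, (h v' = h v + e fun i => (m i : ℝ)) →
        v = v') → (∀ v ∈ ball v₀ r, h v ∉ Z) →
      ∀ W : V [×3]→L[ℂ] ℂ, (∀ x y z, W ![x, y, z] = fderiv ℂ wf (h v₀) x y z) →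
      ∀ m : Fin d → (V →L[ℂ] ℂ), (∀ i, ‖m i‖ ≤ 1) →
        ‖H713.minor m (fun u => G (h u)) v₀‖ ^ (2 * ex d) *
          ‖W.compContinuousLinearMap fun _ => (G.symm : V →L[ℂ] V)‖ ≤ B := by
  obtain ⟨B, hB, hest⟩ := slice_bound (n := n) b Q (τ := τ) (r := r) A hτ hr
  refine ⟨B, hB, ?_⟩
  intro e Z Le S lam wf G h v₀ hF hQ hS hd hA hinj hZ W hW m hm
  have hz : h v₀ ∉ Z := hZ v₀ (mem_ball_self hr)
  obtain ⟨s, hs⟩ := hF.exists_lg hz
  refine norm_cub_le hW (by positivity) hB fun x y z => ?_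
  refine hest e G S lam h v₀ hQ hF.isThetaD hS hd hA hinj (fun v hv h1 =>
    hZ v hv ((hF.lam_eq_zero _).1 h1)) s hs.1 hs.2 (fun x y z => fderiv ℂ wf (h v₀) x y z) ?_
    (fun w => ?_) m hm x y z
  · have h1 : (fun x y z => fderiv ℂ wf (h v₀) x y z) = d3 s (h v₀) := by
      funext x y z
      exact hF.link hz hs x y z
    rw [h1]
    exact isCub_d3' hs.1
  · rw [hF.link hz hs, d3_diag hs.1]

end FibD

end Vale.Agent.P281.H969.D
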