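import Vale.Agent.P281.H64.TD.SpecB
import Vale.Agent.P281.H969.D.Link

/-!
# P281, project T-Δ (helper969): the field `bound` of `IsTorD`
-/

open Set Filter Metric MeasureTheory Vale.Agent.P281 Vale.Agent.P281.H713 Vale.Agent.P272.K
open Vale.Agent.P281.H64.TU (Tame)
open Vale.Agent.P281.H64.TD

open scoped Topology ContDiff Manifold

noncomputable section

namespace Vale.Agent.P281.H969.D

variable {E E' : Type} [NormedAddCommGroup E] [NormedSpace ℂ E]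
  [NormedAddCommGroup E'] [NormedSpace ℂ E']
variable {X Y : Type} [TopologicalSpace X] [ChartedSpace E X]
  [TopologicalSpace Y] [ChartedSpace E' Y]
variable {V : Type} [NormedAddCommGroup V] [InnerProductSpace ℂ V] [FiniteDimensional ℂ V]
variable {n d : ℕ} {T : Tame (Fin d → ℂ) X} {f : X → Y} {S : Set Y}
  {Q : (Fin n → ℝ) → (Fin n → ℝ) → ℝ} {ι : Type} {U : ι → Set Y}
  {π : ι → Y → ((Fin n → ℝ) ≃L[ℝ] V)} {u : ι → Y → V → X}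

/-- **The field `bound` of `IsTorD`**, with the lift over the whole polydisc. `Φ a y` is the third
logarithmic derivative on the fibre over `y`, `cub` the conversion to multilinear maps. -/
theorem torM_bound (hM : IsTorM E E' d T f S Q U π u) {𝒜 : Set (Set X)} {τ : ℝ} (hτ : 0 ≤ τ)
    {Φ : ι → Y → V → (V →L[ℂ] V →L[ℂ] V →L[ℂ] ℂ)}
    {cub : (V →L[ℂ] V →L[ℂ] V →L[ℂ] ℂ) → Cub V} (hcub : ∀ φ x y z, cub φ ![x, y, z] = φ x y z)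
    (hfib : ∀ a, ∀ y ∈ U a, ∃ (Le : V → (V → ℂ) → Prop) (S' : V → V → ℂ) (lam : V → ℝ)
      (wf : V → V →L[ℂ] V →L[ℂ] ℂ), FibD (π a y) {v | ∃ D ∈ 𝒜, u a y v ∈ D} Le S' lam wf ∧
      (∀ v, (∀ D ∈ 𝒜, u a y v ∉ D) → ∀ x₁ x₂ x₃, Φ a y v x₁ x₂ x₃ = fderiv ℂ wf v x₁ x₂ x₃) ∧
      ∀ G : V ≃L[ℂ] V, (∀ x x', (inner ℂ (G (π a y x)) (G (π a y x'))).im = Q x x') →
        ∀ w, (S' w w).re ≤ τ * ‖G w‖ ^ 2)
    {L : ι → X → (X → V) → (X → Cub V) → Prop}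
    (hL : ∀ a x ζ, f x ∈ U a → ContMDiffAt 𝓘(ℂ, E) 𝓘(ℂ, V) ω ζ x →
      (∀ᶠ z in 𝓝 x, u a (f z) (ζ z) = z) → L a x ζ fun z => cub (Φ a (f z) (ζ z))) :
    ∃ M : ℕ, ∀ ρ K : ℝ, 0 < ρ → 0 < K → ∃ B : ℝ, ∀ (a : ι) (q : (Fin d → ℂ) → X)
      (v₀ : Fin d → ℂ), IsPolydisc E f q v₀ ρ → T K q v₀ ρ → f (q v₀) ∈ U a →
      (∀ v ∈ ball v₀ ρ, ∀ D ∈ 𝒜, q v ∉ D) → ∃ (β : X → V) (w : X → Cub V)
        (h : (Fin d → ℂ) → V), L a (q v₀) β w ∧ DifferentiableOn ℂ h (ball v₀ ρ) ∧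
        (∀ᶠ v in 𝓝 v₀, β (q v) = h v) ∧
        ∀ G : V ≃L[ℂ] V, (∀ x x', (inner ℂ (G (π a (f (q v₀)) x)) (G (π a (f (q v₀)) x'))).im =
          Q x x') → (∀ v ∈ ball v₀ (ρ / 2), ‖fderiv ℂ (fun u => G (h u)) v‖ ≤ B) ∧
          ∀ m : Fin d → (V →L[ℂ] ℂ), (∀ i, ‖m i‖ ≤ 1) →
            ‖minor m (fun u => G (h u)) v₀‖ ^ M *
              ‖(w (q v₀)).compContinuousLinearMap fun _ => (G.symm : V →L[ℂ] V)‖ ≤ B := by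
  have b : OrthonormalBasis (Fin d) ℂ V := (stdOrthonormalBasis ℂ V).reindex (finCongr hM.dim)
  refine ⟨2 * ex d, fun ρ K hρ hK => ?_⟩
  obtain ⟨A, hA⟩ := hM.bound ρ K hρ hK
  obtain ⟨B, hB, hbnd⟩ := bnd_core (n := n) b Q (τ := τ) (r := ρ) A hτ hρ
  refine ⟨max A B, ?_⟩
  intro a q v₀ hq hT hU hD
  obtain ⟨h, hd, hu, hG⟩ := hA a q v₀ hq hT hU
  set y := f (q v₀) with hy
  have hv₀ : v₀ ∈ ball v₀ ρ := mem_ball_self hρ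
  obtain ⟨ζ, hζ, hζ0, hζ1, hζ2, -⟩ := hM.chart a y hU (h v₀)
  have hx : u a y (h v₀) = q v₀ := hu v₀ hv₀
  rw [hx] at hζ hζ0 hζ1
  have hcont : Tendsto (fun v => (y, h v)) (𝓝 v₀) (𝓝 (y, h v₀)) := by
    have h1 : ContinuousAt h v₀ := (hd.differentiableAt (isOpen_ball.mem_nhds hv₀)).continuousAt
    exact tendsto_const_nhds.prodMk_nhds h1
  have hζh : ∀ᶠ v in 𝓝 v₀, ζ (q v) = h v := by
    filter_upwards [hcont.eventually hζ2, isOpen_ball.mem_nhds hv₀] with v h1 h2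
    rw [← hu v h2]
    exact h1
  refine ⟨ζ, fun z => cub (Φ a (f z) (ζ z)), h, hL a (q v₀) ζ hU hζ hζ1, hd, hζh, ?_⟩
  intro G hGp
  refine ⟨fun v hv => (hG G hGp v hv).trans (le_max_left _ _), fun m hm => ?_⟩
  obtain ⟨Le, S', lam, wf, hF, hΦ, hS⟩ := hfib a y hU
  refine le_trans ?_ (le_max_right _ _)
  refine hbnd (π a y) _ Le S' lam wf G h v₀ hF hGp (hS G hGp) hd (hG G hGp) ?_ ?_ _ ?_ m hm
  · intro v hv v' hv' k hk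
    refine hq.2.1 hv hv' ?_
    rw [← hu v hv, ← hu v' hv', hk]
    exact (hM.per a y hU (h v) k).symm
  · rintro v hv ⟨D, hDA, hD'⟩
    rw [hu v hv] at hD'
    exact hD v hv D hDA hD'
  · intro x₁ x₂ x₃
    rw [hcub, ← hy, hζ0]
    refine hΦ (h v₀) (fun D hDA hD' => ?_) x₁ x₂ x₃
    rw [hx] at hD'
    exact hD v₀ hv₀ D hDA hD'

/-- The literal field. -/
theorem torD_bound (hM : IsTorM E E' d T f S Q U π u) {𝒜 : Set (Set X)} {τ : ℝ} (hτ : 0 ≤ τ)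
    {Φ : ι → Y → V → (V →L[ℂ] V →L[ℂ] V →L[ℂ] ℂ)}
    {cub : (V →L[ℂ] V →L[ℂ] V →L[ℂ] ℂ) → Cub V} (hcub : ∀ φ x y z, cub φ ![x, y, z] = φ x y z)
    (hfib : ∀ a, ∀ y ∈ U a, ∃ (Le : V → (V → ℂ) → Prop) (S' : V → V → ℂ) (lam : V → ℝ)
      (wf : V → V →L[ℂ] V →L[ℂ] ℂ), FibD (π a y) {v | ∃ D ∈ 𝒜, u a y v ∈ D} Le S' lam wf ∧
      (∀ v, (∀ D ∈ 𝒜, u a y v ∉ D) → ∀ x₁ x₂ x₃, Φ a y v x₁ x₂ x₃ = fderiv ℂ wf v x₁ x₂ x₃) ∧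
      ∀ G : V ≃L[ℂ] V, (∀ x x', (inner ℂ (G (π a y x)) (G (π a y x'))).im = Q x x') →
        ∀ w, (S' w w).re ≤ τ * ‖G w‖ ^ 2)
    {L : ι → X → (X → V) → (X → Cub V) → Prop}
    (hL : ∀ a x ζ, f x ∈ U a → ContMDiffAt 𝓘(ℂ, E) 𝓘(ℂ, V) ω ζ x →
      (∀ᶠ z in 𝓝 x, u a (f z) (ζ z) = z) → L a x ζ fun z => cub (Φ a (f z) (ζ z))) :
    ∃ M : ℕ, ∀ ρ K : ℝ, 0 < ρ → 0 < K → ∃ B : ℝ, ∀ (a : ι) (q : (Fin d → ℂ) → X)
      (v₀ : Fin d → ℂ), IsPolydisc E f q v₀ ρ → T K q v₀ ρ → f (q v₀) ∈ U a →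
      (∀ v ∈ ball v₀ ρ, ∀ D ∈ 𝒜, q v ∉ D) → ∃ β w, L a (q v₀) β w ∧
        ∀ G : V ≃L[ℂ] V, (∀ x x', (inner ℂ (G (π a (f (q v₀)) x)) (G (π a (f (q v₀)) x'))).im =
          Q x x') → ‖fderiv ℂ (fun u => G (β (q u))) v₀‖ ≤ B ∧
          ∀ m : Fin d → (V →L[ℂ] ℂ), (∀ i, ‖m i‖ ≤ 1) →
            ‖minor m (fun u => G (β (q u))) v₀‖ ^ M *
              ‖(w (q v₀)).compContinuousLinearMap fun _ => (G.symm : V →L[ℂ] V)‖ ≤ B := by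
  obtain ⟨M, hb⟩ := torM_bound hM hτ hcub hfib hL
  refine ⟨M, fun ρ K hρ hK => ?_⟩
  obtain ⟨B, hB⟩ := hb ρ K hρ hK
  refine ⟨B, fun a q v₀ hq hT hU hD => ?_⟩
  obtain ⟨β, w, h, h1, -, h3, h4⟩ := hB a q v₀ hq hT hU hD
  refine ⟨β, w, h1, fun G hG => ?_⟩
  have h5 : (fun u => G (β (q u))) =ᶠ[𝓝 v₀] fun u => G (h u) := by
    filter_upwards [h3] with v hv
    rw [hv]
  obtain ⟨h6, h7⟩ := h4 G hG
  refine ⟨?_, fun m hm => ?_⟩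
  · rw [h5.fderiv_eq]
    exact h6 v₀ (mem_ball_self (by positivity))
  · have h8 : minor m (fun u => G (β (q u))) v₀ = minor m (fun u => G (h u)) v₀ := by
      unfold minor
      rw [h5.fderiv_eq]
    rw [h8]
    exact h7 m hm

end Vale.Agent.P281.H969.D
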