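import Vale.Agent.P281.H969.D.Fib
import Vale.Agent.P281.H969.D.Bnd
import Vale.Agent.P281.H125.D.Econ4
import Vale.Agent.P281.H383.TD.D10c

/-!
# P281, project T-Δ (helper969): the class of the divisor on the fibres; the data on the fibres
-/

open Set Filter Metric MeasureTheory Vale.Agent.P281 Vale.Agent.P281.H713
open Vale.Agent.P281.H64.TU (Tame)
open Vale.Agent.P281.H64.TD (IsTorM Cub)
open Vale.Agent.P281.H125.D

open scoped Topology ContDiff Manifold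

noncomputable section

namespace Vale.Agent.P281.H969.D

variable {EX EY : Type} [NormedAddCommGroup EX] [NormedSpace ℂ EX]
  [NormedAddCommGroup EY] [NormedSpace ℂ EY]
variable {X Y : Type} [TopologicalSpace X] [ChartedSpace EX X]
  [TopologicalSpace Y] [ChartedSpace EY Y]
variable {V : Type} [NormedAddCommGroup V] [InnerProductSpace ℂ V] [FiniteDimensional ℂ V]
variable {P : Type} [NormedAddCommGroup P] [NormedSpace ℂ P] [FiniteDimensional ℂ P]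
variable {n d : ℕ}

/-- Local equations of the divisor `∑_{D ∈ 𝒜} D` on a fibre `uy : V → X`. -/
def LeA (EX : Type) [NormedAddCommGroup EX] [NormedSpace ℂ EX] [ChartedSpace EX X]
    (𝒜 : Set (Set X)) (uy : V → X) (z : V) (g : V → ℂ) : Prop :=
  ∃ e : Set X → X → ℂ, (∀ D ∈ 𝒜, J.IsLocalEq EX D (e D) (uy z)) ∧
    g =ᶠ[𝓝 z] fun v => ∏ᶠ (D : Set X) (_ : D ∈ 𝒜), e D (uy v)

/-- Local equations of the divisor on the family `u (ψ t)`, `t ∈ T`. -/
def LeM (EX : Type) [NormedAddCommGroup EX] [NormedSpace ℂ EX] [ChartedSpace EX X]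
    (𝒜 : Set (Set X)) (u : Y → V → X) (ψ : P → Y) (T : Set P) :
    P × V → (P × V → ℂ) → Prop := fun w h =>
  w.1 ∈ T ∧ ∃ e : Set X → X → ℂ, (∀ D ∈ 𝒜, J.IsLocalEq EX D (e D) (u (ψ w.1) w.2)) ∧
    h =ᶠ[𝓝 w] fun w' => ∏ᶠ (D : Set X) (_ : D ∈ 𝒜), e D (u (ψ w'.1) w'.2)

omit [FiniteDimensional ℂ V] [FiniteDimensional ℂ P] [TopologicalSpace Y] [ChartedSpace EY Y] in
theorem leS_iff {𝒜 : Set (Set X)} {u : Y → V → X} {ψ : P → Y} {T : Set P} {t : P} (ht : t ∈ T)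
    (z : V) (g : V → ℂ) : LeS (LeM EX 𝒜 u ψ T) t z g ↔ LeA EX 𝒜 (u (ψ t)) z g := by
  classical
  constructor
  · rintro ⟨H, ⟨-, e, h1, h2⟩, rfl⟩
    exact ⟨e, h1, (prod_tendsto t z).eventually h2⟩
  · rintro ⟨e, h1, h2⟩
    refine ⟨fun w => if w.1 = t then g w.2 else
      ∏ᶠ (D : Set X) (_ : D ∈ 𝒜), e D (u (ψ w.1) w.2), ⟨ht, e, h1, ?_⟩, ?_⟩
    · have h3 : Tendsto (fun w : P × V => w.2) (𝓝 (t, z)) (𝓝 z) :=
        (continuous_snd.tendsto (t, z))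
      filter_upwards [h3.eventually h2] with w hw
      by_cases hwt : w.1 = t
      · rw [if_pos hwt, hwt]
        exact hw
      · rw [if_neg hwt]
    · funext v
      simp

omit [FiniteDimensional ℂ V] in
theorem isLam_congr {e : (Fin n → ℝ) ≃L[ℝ] V} {Le Le' : V → (V → ℂ) → Prop}
    (h : ∀ z g, Le' z g → Le z g) {E : V →L[ℝ] V →L[ℝ] ℝ} {lam : V → ℝ} (hl : IsLam e Le E lam) :
    IsLam e Le' E lam :=
  { alt := hl.alt
    inv := hl.inv
    per := hl.per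
    loc := fun z g hg => hl.loc z g (h z g hg) }

omit [FiniteDimensional ℂ V] in
theorem IsHerm.shift_re {S : V → V → ℂ} (hS : IsHerm S) (u c : V) :
    (S (u + c) (u + c)).re = (S u u).re + 2 * (S u c).re + (S c c).re := by
  have h3 : S (u + c) (u + c) = S u u + S u c + (starRingEnd ℂ) (S u c) + S c c := by
    rw [hS.add, hS.symm (u + c) u, hS.symm (u + c) c, hS.add, hS.add, map_add, map_add,
      ← hS.symm u u, ← hS.symm c u, ← hS.symm u c, ← hS.symm c c, hS.symm u c]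
    ring
  rw [h3]
  simp only [Complex.add_re, Complex.conj_re]
  ring

/-- The form `E`, transported by `G`. -/
def tf (G : V ≃L[ℂ] V) (E : V →L[ℝ] V →L[ℝ] ℝ) : V →L[ℝ] V →L[ℝ] ℝ :=
  E.bilinearComp ((gr G).symm : V →L[ℝ] V) ((gr G).symm : V →L[ℝ] V)

/-- Transport of the metric by an affine isomorphism. -/
theorem isLam_transport {𝒜 : Set (Set X)} {e e' : (Fin n → ℝ) ≃L[ℝ] V} {uy uy' : V → X}
    {G : V ≃L[ℂ] V} {c : V}
    (hG : ∀ m : Fin n → ℤ, ∃ m' : Fin n → ℤ, G (e (zr m)) = e' (zr m'))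
    (hu : ∀ w, uy' (G w + c) = uy w) {E' : V →L[ℝ] V →L[ℝ] ℝ} {lam' : V → ℝ}
    (h : IsLam e' (LeA EX 𝒜 uy') E' lam') :
    IsLam e (LeA EX 𝒜 uy) (tf G.symm E') fun z => lam' (G z + c) := by
  have htf : ∀ v w, tf G.symm E' v w = E' (G v) (G w) := fun v w => rfl
  have hI : ∀ v, G (Complex.I • v) = Complex.I • G v := fun v => map_smul G Complex.I v
  exact
    { alt := fun v => by rw [htf, h.alt]
      inv := fun v w => by rw [htf, htf, hI, hI, h.inv]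
      per := fun z k => by
        obtain ⟨m', hm'⟩ := hG k
        have h1 : G (z + e (zr k)) + c = G z + c + e' (zr m') := by
          rw [map_add, hm']
          abel
        rw [h1, h.per]
      loc := by
        rintro z g ⟨e₀, h1, h2⟩
        have hS := isHerm_frv h.alt h.inv
        obtain ⟨s, hs, hs'⟩ := h.loc (G z + c)
          (fun v => ∏ᶠ (D : Set X) (_ : D ∈ 𝒜), e₀ D (uy' v)) ⟨e₀, by
            intro D hD
            rw [hu]
            exact h1 D hD, Filter.EventuallyEq.rfl⟩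
        let l : V →L[ℂ] ℂ := LinearMap.toContinuousLinearMap
          { toFun := fun v => frv E' (G v) c
            map_add' := fun v v' => by rw [map_add, hS.add]
            map_smul' := fun r v => by
              rw [map_smul, hS.smul]
              rfl }
        have hl : ∀ v, l v = frv E' (G v) c := fun v => rfl
        have h3 : AnalyticAt ℂ (fun w => G w + c) z := (G.analyticAt z).add analyticAt_const
        refine ⟨fun w => s (G w + c) - l w - frv E' c c / 2,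
          ((AnalyticAt.fun_comp (g := s) (f := fun w => G w + c) hs h3).sub (l.analyticAt z)).sub
            analyticAt_const, ?_⟩
        filter_upwards [h3.continuousAt.eventually hs', h2] with w h4 h5
        rw [h4, h5]
        have h6 : (∏ᶠ (D : Set X) (_ : D ∈ 𝒜), e₀ D (uy' (G w + c))) =
            ∏ᶠ (D : Set X) (_ : D ∈ 𝒜), e₀ D (uy w) := by rw [hu]
        rw [h6, norm_mul, norm_mul, mul_pow, mul_pow, Complex.norm_exp, Complex.norm_exp,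
          ← Real.exp_nat_mul, ← Real.exp_nat_mul, mul_right_comm, ← Real.exp_add,
          mul_right_comm (Real.exp _), ← Real.exp_add]
        congr 2
        have h7 := hS.shift_re (G w) c
        rw [frv_re, frv_re] at h7
        rw [h7, htf, hI]
        simp only [Complex.sub_re]
        have h8 : (frv E' c c / 2).re = (frv E' c c).re / 2 := by rw [Complex.div_ofNat_re]
        rw [h8, hl]
        push_cast
        ring }

section Man

variable {T : Tame (Fin d → ℂ) X} {f : X → Y} {S : Set Y}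
  {Q : (Fin n → ℝ) → (Fin n → ℝ) → ℝ} {ι : Type} {U : ι → Set Y}
  {π : ι → Y → ((Fin n → ℝ) ≃L[ℝ] V)} {u : ι → Y → V → X} {𝒜 : Set (Set X)}

/-- The output of D2c-1. -/
def HasDiv (EX : Type) [NormedAddCommGroup EX] [NormedSpace ℂ EX] [ChartedSpace EX X]
    (P : Type) [NormedAddCommGroup P] [NormedSpace ℂ P] (U : ι → Set Y)
    (π : ι → Y → ((Fin n → ℝ) ≃L[ℝ] V)) (u : ι → Y → V → X) (𝒜 : Set (Set X)) : Prop :=
  ∀ a, ∀ y₀ ∈ U a, ∃ (χ : OpenPartialHomeomorph Y P) (T : Set P), y₀ ∈ χ.source ∧ χ y₀ ∈ T ∧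
    IsOpen T ∧ T ⊆ χ.target ∧ (∀ t ∈ T, χ.symm t ∈ U a) ∧
    HolPer (fun t => π a (χ.symm t)) T ∧
    DivDatum (fun t => π a (χ.symm t)) T {w | ∃ D ∈ 𝒜, u a (χ.symm w.1) w.2 ∈ D}
      (LeM EX 𝒜 (u a) χ.symm T)

omit [ChartedSpace EY Y] in
/-- Existence of the metric on the fibres. -/
theorem exists_full (hDiv : HasDiv EX P U π u 𝒜)
    (hoff : ∀ a, ∀ y ∈ U a, ∃ v, ∀ D ∈ 𝒜, u a y v ∉ D) (a : ι) {y : Y} (hy : y ∈ U a) :
    ∃ (E : V →L[ℝ] V →L[ℝ] ℝ) (lam : V → ℝ), IsLam (π a y) (LeA EX 𝒜 (u a y)) E lam ∧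
      IsThetaD (π a y) (frv E) lam := by
  obtain ⟨χ, T, h1, h2, h3, h4, h5, h6, h7⟩ := hDiv a y hy
  obtain ⟨v₀, hv₀⟩ := hoff a y hy
  have hχ : χ.symm (χ y) = y := χ.left_inv h1
  have hO := divOne_of h7 h2 (z₀ := v₀) (by
    rintro ⟨D, hD, hD'⟩
    rw [hχ] at hD'
    exact hv₀ D hD hD')
  obtain ⟨E, lam, k1, k2, k3, k4, k5, k6, k7⟩ := H383.TD.D2b hO
  simp only [hχ] at hO k5 k6
  have k7' : ∀ z g, LeA EX 𝒜 (u a y) z g → ∃ s : V → ℂ, AnalyticAt ℂ s z ∧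
      ∀ᶠ w in 𝓝 z, lam w = ‖Complex.exp (s w) * g w‖ ^ 2 *
        Real.exp (-(E (Complex.I • w) w)) := by
    intro z g hg
    refine k7 z g ((leS_iff h2 z g).2 ?_)
    rwa [hχ]
  refine ⟨E, lam, { alt := k1, inv := k2, per := k5, loc := k7' }, ?_⟩
  exact
    { herm := isHerm_frv k1 k2
      cont := k3
      nonneg := k4
      ne := by
        have h8 := hO.dense 0
        rw [Filter.not_eventually] at h8
        obtain ⟨z, hz⟩ := h8.exists
        exact ⟨z, fun h9 => hz ((k6 z).1 h9)⟩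
      per := k5
      loc := fun z => by
        obtain ⟨g, hg⟩ := hO.ex z
        have hg' : LeA EX 𝒜 (u a y) z g := by
          have := (leS_iff h2 z g).1 hg
          rwa [hχ] at this
        obtain ⟨s, h8, h9⟩ := k7' z g hg'
        refine ⟨fun w => Complex.exp (s w) * g w, h8.cexp.mul (hO.an z g hg), ?_⟩
        filter_upwards [h9] with w hw
        rw [hw, frv_re] }

omit [ChartedSpace EY Y] in
/-- The class is locally constant. -/
theorem locconst_fib (hDiv : HasDiv EX P U π u 𝒜)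
    (hoff : ∀ a, ∀ y ∈ U a, ∃ v, ∀ D ∈ 𝒜, u a y v ∉ D) (a : ι) {y₁ : Y} (hy₁ : y₁ ∈ U a) :
    ∀ᶠ y in 𝓝 y₁, ∀ (E E₁ : V →L[ℝ] V →L[ℝ] ℝ) (lam lam₁ : V → ℝ),
      IsLam (π a y) (LeA EX 𝒜 (u a y)) E lam → IsLam (π a y₁) (LeA EX 𝒜 (u a y₁)) E₁ lam₁ →
      ∀ ξ η, E (π a y ξ) (π a y η) = E₁ (π a y₁ ξ) (π a y₁ η) := by
  obtain ⟨χ, T, h1, h2, h3, h4, h5, h6, h7⟩ := hDiv a y₁ hy₁
  obtain ⟨v₀, hv₀⟩ := hoff a y₁ hy₁
  have hχ : χ.symm (χ y₁) = y₁ := χ.left_inv h1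
  have h8 := E_locconst h7 h3 h6 h2 (z₁ := v₀) (by
    rintro ⟨D, hD, hD'⟩
    rw [hχ] at hD'
    exact hv₀ D hD hD')
  have h9 : Tendsto χ (𝓝 y₁) (𝓝 (χ y₁)) := χ.continuousAt h1
  filter_upwards [h9.eventually h8, h9.eventually (h3.mem_nhds h2), χ.open_source.mem_nhds h1]
    with y k1 k2 k3 E E₁ lam lam₁ hE hE₁ ξ η
  have hχy : χ.symm (χ y) = y := χ.left_inv k3
  have hex : ∀ y' ∈ T, (∃ z, (y', z) ∉ {w : P × V | ∃ D ∈ 𝒜, u a (χ.symm w.1) w.2 ∈ D}) →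
      ∃ (E' : V →L[ℝ] V →L[ℝ] ℝ) (lam' : V → ℝ),
        IsLam (π a (χ.symm y')) (LeS (LeM EX 𝒜 (u a) χ.symm T) y') E' lam' := by
    rintro y' hy' -
    obtain ⟨E', lam', hl, -⟩ := exists_full hDiv hoff a (h5 y' hy')
    exact ⟨E', lam', isLam_congr (fun z g hg => (leS_iff hy' z g).1 hg) hl⟩
  have key := k1.2 E E₁ lam lam₁ ?_ ?_ hex ξ η
  · simp only [hχ, hχy] at key
    exact key
  · simp only [hχy]
    refine isLam_congr (fun z g hg => ?_) hE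
    have := (leS_iff k2 z g).1 hg
    rwa [hχy] at this
  · simp only [hχ]
    refine isLam_congr (fun z g hg => ?_) hE₁
    have := (leS_iff h2 z g).1 hg
    rwa [hχ] at this

/-- **D10c**, on the manifold. -/
theorem tau_man (hM : IsTorM EX EY d T f S Q U π u) (hDiv : HasDiv EX P U π u 𝒜)
    (hoff : ∀ a, ∀ y ∈ U a, ∃ v, ∀ D ∈ 𝒜, u a y v ∉ D) (hS : IsPreconnected Sᶜ) :
    ∃ τ : ℝ, 0 ≤ τ ∧ ∀ a, ∀ y ∈ U a, ∀ (E : V →L[ℝ] V →L[ℝ] ℝ) (lam : V → ℝ),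
      IsLam (π a y) (LeA EX 𝒜 (u a y)) E lam → ∀ G : V ≃L[ℂ] V,
      (∀ x x', (inner ℂ (G (π a y x)) (G (π a y x'))).im = Q x x') →
      ∀ w, E (Complex.I • w) w ≤ τ * ‖G w‖ ^ 2 := by
  classical
  have hex : ∀ a y, ∃ (E : V →L[ℝ] V →L[ℝ] ℝ) (lam : V → ℝ), y ∈ U a →
      IsLam (π a y) (LeA EX 𝒜 (u a y)) E lam ∧ IsThetaD (π a y) (frv E) lam := by
    intro a y
    by_cases hy : y ∈ U a
    · obtain ⟨E, lam, h1, h2⟩ := exists_full hDiv hoff a hy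
      exact ⟨E, lam, fun _ => ⟨h1, h2⟩⟩
    · exact ⟨0, 0, fun h => (hy h).elim⟩
  choose E lam hE using hex
  -- uniqueness
  have huniq : ∀ a, ∀ y ∈ U a, ∀ (E' : V →L[ℝ] V →L[ℝ] ℝ) (lam' : V → ℝ),
      IsLam (π a y) (LeA EX 𝒜 (u a y)) E' lam' → ∀ v w, E' v w = E a y v w := by
    intro a y hy E' lam' h v w
    have h1 := (locconst_fib hDiv hoff a hy).self_of_nhds E' (E a y) lam' (lam a y) h (hE a y hy).1
      ((π a y).symm v) ((π a y).symm w)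
    simpa using h1
  obtain ⟨τ, hτ, hτ'⟩ := H383.TD.D10c (S := S) (Q := Q) hM.cover hM.isOpen hS
    (fun a y hy => hM.polarized a y hy) E (fun a y hy v => (hE a y hy).1.alt v)
    (fun a y hy w => by
      have h1 := (hE a y hy).2.form_nonneg w
      rwa [frv_re] at h1)
    (fun a y hy => by
      filter_upwards [locconst_fib hDiv hoff a hy, (hM.isOpen a).mem_nhds hy] with y' h1 h2
      exact h1 _ _ _ _ (hE a y' h2).1 (hE a y hy).1)
    (fun a b y hy => by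
      obtain ⟨v', hv'⟩ := hM.surj b (u a y 0) (by rw [hM.mem a y hy.1]; exact hy.2)
      rw [hM.mem a y hy.1] at hv'
      obtain ⟨G, c, h1, h2, h3⟩ := hM.trans a b y hy 0 v' hv'.symm
      refine ⟨G, h1, fun v w => ?_⟩
      have h4 := isLam_transport (e := π a y) (fun m => h1.1 m) h3 (hE b y hy.2).1
      exact huniq a y hy.1 _ _ h4 v w)
  refine ⟨τ, hτ, fun a y hy E' lam' h G hG w => ?_⟩
  rw [huniq a y hy E' lam' h]
  exact hτ' a y hy G hG w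

/-- **The data on the fibres**, as needed for `torD_bound`. -/
theorem hfib_man (hM : IsTorM EX EY d T f S Q U π u) (hDiv : HasDiv EX P U π u 𝒜)
    (hoff : ∀ a, ∀ y ∈ U a, ∃ v, ∀ D ∈ 𝒜, u a y v ∉ D) (hS : IsPreconnected Sᶜ)
    {Φ : ι → Y → V → (V →L[ℂ] V →L[ℂ] V →L[ℂ] ℂ)}
    (hΦ : ∀ a, ∀ y ∈ U a, ∃ wf : V → V →L[ℂ] V →L[ℂ] ℂ,
      (∀ z, (∀ D ∈ 𝒜, u a y z ∉ D) → ∀ k : Fin n → ℤ, wf (z + π a y (zr k)) = wf z) ∧
      (∀ z g, LeA EX 𝒜 (u a y) z g → ∃ A : V → V →L[ℂ] V →L[ℂ] ℂ, AnalyticAt ℂ A z ∧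
        ∀ᶠ w in 𝓝 z, (∀ D ∈ 𝒜, u a y w ∉ D) →
          wf w = fderiv ℂ (fun u => (g u)⁻¹ • fderiv ℂ g u) w + A w) ∧
      ∀ z, (∀ D ∈ 𝒜, u a y z ∉ D) → Φ a y z = fderiv ℂ wf z) :
    ∃ τ : ℝ, 0 ≤ τ ∧ ∀ a, ∀ y ∈ U a, ∃ (Le : V → (V → ℂ) → Prop) (S' : V → V → ℂ) (lam : V → ℝ)
      (wf : V → V →L[ℂ] V →L[ℂ] ℂ), FibD (π a y) {v | ∃ D ∈ 𝒜, u a y v ∈ D} Le S' lam wf ∧
      (∀ v, (∀ D ∈ 𝒜, u a y v ∉ D) → ∀ x₁ x₂ x₃, Φ a y v x₁ x₂ x₃ = fderiv ℂ wf v x₁ x₂ x₃) ∧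
      ∀ G : V ≃L[ℂ] V, (∀ x x', (inner ℂ (G (π a y x)) (G (π a y x'))).im = Q x x') →
        ∀ w, (S' w w).re ≤ τ * ‖G w‖ ^ 2 := by
  obtain ⟨τ, hτ, hτ'⟩ := tau_man hM hDiv hoff hS
  refine ⟨τ, hτ, fun a y hy => ?_⟩
  obtain ⟨E, lam, hE, hT⟩ := exists_full hDiv hoff a hy
  obtain ⟨wf, w1, w2, w3⟩ := hΦ a y hy
  obtain ⟨χ, T', h1, h2, h3, h4, h5, h6, h7⟩ := hDiv a y hy
  obtain ⟨v₀, hv₀⟩ := hoff a y hy
  have hχ : χ.symm (χ y) = y := χ.left_inv h1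
  have hO := divOne_of h7 h2 (z₀ := v₀) (by
    rintro ⟨D, hD, hD'⟩
    rw [hχ] at hD'
    exact hv₀ D hD hD')
  have hLe : ∀ z g, LeS (LeM EX 𝒜 (u a) χ.symm T') (χ y) z g ↔ LeA EX 𝒜 (u a y) z g := by
    intro z g
    have := leS_iff (EX := EX) (𝒜 := 𝒜) (u := u a) (ψ := χ.symm) h2 z g
    rwa [hχ] at this
  have hoff' : ∀ z, z ∉ {v | ∃ D ∈ 𝒜, u a y v ∈ D} ↔ ∀ D ∈ 𝒜, u a y z ∉ D := by
    intro z
    simp only [mem_ofPred_eq, not_exists, not_and]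
  have hZ : ∀ z, z ∈ {z | (χ y, z) ∈ {w : P × V | ∃ D ∈ 𝒜, u a (χ.symm w.1) w.2 ∈ D}} ↔
      z ∈ {v | ∃ D ∈ 𝒜, u a y v ∈ D} := by
    intro z
    show (∃ D ∈ 𝒜, u a (χ.symm (χ y)) z ∈ D) ↔ ∃ D ∈ 𝒜, u a y z ∈ D
    rw [hχ]
  refine ⟨LeA EX 𝒜 (u a y), frv E, lam, wf, ?_, fun v hv x₁ x₂ x₃ => by rw [w3 v hv],
    fun G hG w => ?_⟩
  · exact
      { ex := fun z => by
          obtain ⟨g, hg⟩ := hO.ex z
          exact ⟨g, (hLe z g).1 hg⟩
        an := fun z g hg => hO.an z g ((hLe z g).2 hg)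
        zero := fun z g hg => by
          filter_upwards [hO.zero z g ((hLe z g).2 hg)] with w hw
          rw [hw]
          exact hZ w
        dense := fun z h => hO.dense z (h.mono fun w hw => (hZ w).2 hw)
        herm := hT.herm
        cont := hT.cont
        per := hT.per
        loc := fun z g hg => by
          obtain ⟨s, h8, h9⟩ := hE.loc z g hg
          refine ⟨s, h8, ?_⟩
          filter_upwards [h9] with w hw
          rw [hw, frv_re]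
        wper := fun z hz k => w1 z ((hoff' z).1 hz) k
        wloc := fun z g hg => by
          obtain ⟨A, h8, h9⟩ := w2 z g hg
          refine ⟨A, h8, ?_⟩
          filter_upwards [h9] with w hw hwz
          exact hw ((hoff' w).1 hwz) }
  · rw [frv_re]
    exact hτ' a y hy E lam hE G hG w

end Man

end Vale.Agent.P281.H969.D
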