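import Vale.Agent.P281.H969.D.Third

/-!
# P281, project T-Δ (helper969): elementary estimates
-/

open Set Filter Metric Complex Real MeasureTheory
open scoped Topology ENNReal ComplexConjugate

noncomputable section

namespace Vale.Agent.P281.H969.D

variable {d : ℕ}

/-- A nonnegative Hermitian form is bounded by its trace. -/
theorem hf_le_trace {H : Matrix (Fin d) (Fin d) ℂ} (hH : H.IsHermitian)
    (hw : ∀ w, 0 ≤ (hf H w w).re) (w : Fin d → ℂ) :
    (hf H w w).re ≤ d * H.trace.re * ‖w‖ ^ 2 := by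
  have hcol : ∀ i j, conj (H i j) = H j i := fun i j => hH.apply j i
  have hdiag : ∀ i, 0 ≤ (H i i).re := by
    intro i
    have h1 := hw (Pi.single i 1)
    have h2 : hf H (Pi.single i 1) (Pi.single i 1) = H i i := by
      simp only [hf]
      rw [Finset.sum_eq_single i, Finset.sum_eq_single i]
      · simp
      · intro j _ hj
        simp [Pi.single_eq_of_ne hj]
      · simp
      · intro j _ hj
        refine Finset.sum_eq_zero fun k _ => ?_
        simp [Pi.single_eq_of_ne hj]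
      · simp
    rwa [h2] at h1
  -- the pairs
  have hpair : ∀ i j, i ≠ j → 2 * (H i j * w i * conj (w j)).re ≤
      ‖w i‖ ^ 2 * (H i i).re + ‖w j‖ ^ 2 * (H j j).re := by
    intro i j hij
    have h1 := hw (Pi.single i (w i) - Pi.single j (w j))
    have h2 : hf H (Pi.single i (w i) - Pi.single j (w j)) (Pi.single i (w i) - Pi.single j (w j)) =
        H i i * w i * conj (w i) - H i j * w i * conj (w j) - H j i * w j * conj (w i) +
          H j j * w j * conj (w j) := by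
      have h3 : ∀ a b : Fin d → ℂ, hf H (a - b) (a - b) = hf H a a - hf H a b - hf H b a +
          hf H b b := by
        intro a b
        simp only [hf, ← Finset.sum_sub_distrib, ← Finset.sum_add_distrib]
        refine Finset.sum_congr rfl fun k _ => Finset.sum_congr rfl fun l _ => ?_
        simp only [Pi.sub_apply, map_sub]
        ring
      have h4 : ∀ (a b : Fin d) (x y : ℂ), hf H (Pi.single a x) (Pi.single b y) =
          H a b * x * conj y := by
        intro a b x y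
        simp only [hf]
        rw [Finset.sum_eq_single a, Finset.sum_eq_single b]
        · simp
        · intro j _ hj
          simp [Pi.single_eq_of_ne hj]
        · simp
        · intro j _ hj
          refine Finset.sum_eq_zero fun k _ => ?_
          simp [Pi.single_eq_of_ne hj]
        · simp
      rw [h3, h4, h4, h4, h4]
    have h5 : (H j i * w j * conj (w i)).re = (H i j * w i * conj (w j)).re := by
      have h6 : H j i * w j * conj (w i) = conj (H i j * w i * conj (w j)) := by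
        simp only [map_mul, Complex.conj_conj, hcol]
        ring
      rw [h6, Complex.conj_re]
    have h6 : ∀ k, (H k k * w k * conj (w k)).re = ‖w k‖ ^ 2 * (H k k).re := by
      intro k
      rw [mul_assoc, Complex.mul_conj, Complex.re_mul_ofReal, Complex.normSq_eq_norm_sq]
      ring
    rw [h2] at h1
    simp only [Complex.add_re, Complex.sub_re] at h1
    rw [h5, h6, h6] at h1
    linarith
  have hpair' : ∀ i j, 2 * (H i j * w i * conj (w j)).re ≤
      ‖w i‖ ^ 2 * (H i i).re + ‖w j‖ ^ 2 * (H j j).re := by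
    intro i j
    by_cases hij : i = j
    · subst hij
      rw [mul_assoc, Complex.mul_conj, Complex.re_mul_ofReal, Complex.normSq_eq_norm_sq]
      linarith
    · exact hpair i j hij
  have h1 : 2 * (hf H w w).re ≤ ∑ i : Fin d, ∑ j : Fin d,
      (‖w i‖ ^ 2 * (H i i).re + ‖w j‖ ^ 2 * (H j j).re) := by
    simp only [hf, Complex.re_sum, Finset.mul_sum]
    exact Finset.sum_le_sum fun i _ => Finset.sum_le_sum fun j _ => hpair' i j
  have h2 : ∑ i : Fin d, ∑ j : Fin d, (‖w i‖ ^ 2 * (H i i).re + ‖w j‖ ^ 2 * (H j j).re) =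
      2 * (d * ∑ i : Fin d, ‖w i‖ ^ 2 * (H i i).re) := by
    simp only [Finset.sum_add_distrib, Finset.sum_const, Finset.card_univ, Fintype.card_fin,
      nsmul_eq_mul, Finset.mul_sum]
    rw [← Finset.sum_add_distrib]
    refine Finset.sum_congr rfl fun i _ => ?_
    ring
  have h3 : ∑ i : Fin d, ‖w i‖ ^ 2 * (H i i).re ≤ ‖w‖ ^ 2 * H.trace.re := by
    rw [Matrix.trace, Complex.re_sum, Finset.mul_sum]
    refine Finset.sum_le_sum fun i _ => mul_le_mul_of_nonneg_right ?_ (hdiag i)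
    exact pow_le_pow_left₀ (norm_nonneg _) (norm_le_pi_norm w i) 2
  have h4 : (d : ℝ) * ∑ i : Fin d, ‖w i‖ ^ 2 * (H i i).re ≤ d * (‖w‖ ^ 2 * H.trace.re) :=
    mul_le_mul_of_nonneg_left h3 (Nat.cast_nonneg _)
  linarith

/-- Polarisation. -/
theorem polar {V : Type*} [NormedAddCommGroup V] [NormedSpace ℂ V] {φ : V → V → V → ℂ} {B : ℝ}
    (hadd : ∀ a a' b c, φ (a + a') b c = φ a b c + φ a' b c)
    (hsmul : ∀ (s : ℂ) a b c, φ (s • a) b c = s * φ a b c)
    (h12 : ∀ a b c, φ a b c = φ b a c) (h23 : ∀ a b c, φ a b c = φ a c b)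
    (hB : ∀ w, ‖w‖ ≤ 1 → ‖φ w w w‖ ≤ B) (a b c : V) :
    ‖φ a b c‖ ≤ 27 / 6 * B * (‖a‖ * ‖b‖ * ‖c‖) := by
  have hB0 : 0 ≤ B := by
    have := hB 0 (by simp)
    exact (norm_nonneg _).trans this
  have hneg : ∀ a b c, φ (-a) b c = -φ a b c := by
    intro a b c
    rw [← neg_one_smul ℂ a, hsmul]
    ring
  have h13 : ∀ a b c, φ a b c = φ c b a := by
    intro a b c
    rw [h12, h23, h12]
  have hadd2 : ∀ a b b' c, φ a (b + b') c = φ a b c + φ a b' c := by
    intro a b b' c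
    rw [h12, hadd, h12 b, h12 b']
  have hadd3 : ∀ a b c c', φ a b (c + c') = φ a b c + φ a b c' := by
    intro a b c c'
    rw [h23, hadd2, h23 a c, h23 a c']
  have hneg2 : ∀ a b c, φ a (-b) c = -φ a b c := by
    intro a b c
    rw [h12, hneg, h12 b]
  have hneg3 : ∀ a b c, φ a b (-c) = -φ a b c := by
    intro a b c
    rw [h23, hneg2, h23 a c]
  -- the cubes
  have hcube : ∀ a b c : V, 24 * φ a b c = φ (a + b + c) (a + b + c) (a + b + c) -
      φ (a + b + -c) (a + b + -c) (a + b + -c) - φ (a + -b + c) (a + -b + c) (a + -b + c) +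
      φ (a + -b + -c) (a + -b + -c) (a + -b + -c) := by
    intro a b c
    simp only [hadd, hadd2, hadd3, hneg, hneg2, hneg3]
    have e1 : φ a c b = φ a b c := (h23 a b c).symm
    have e2 : φ b a c = φ a b c := (h12 a b c).symm
    have e3 : φ c b a = φ a b c := (h13 a b c).symm
    have e4 : φ b c a = φ a b c := (h13 b c a).trans e1
    have e5 : φ c a b = φ a b c := (h12 c a b).trans e1
    rw [e1, e2, e3, e4, e5]
    ring
  -- the cubes of vectors of norm at most 3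
  have hQ : ∀ w : V, ‖w‖ ≤ 3 → ‖φ w w w‖ ≤ 27 * B := by
    intro w hw
    set u := ((1 / 3 : ℝ) : ℂ) • w with hu
    have h1 : ‖u‖ ≤ 1 := by
      rw [hu, norm_smul, Complex.norm_real, Real.norm_of_nonneg (by norm_num)]
      linarith
    have h2 : w = (3 : ℂ) • u := by
      rw [hu, smul_smul]
      norm_num
    have h3 : φ w w w = 27 * φ u u u := by
      rw [h2, hsmul, h12 u, hsmul, h13 u u, hsmul]
      ring
    rw [h3, norm_mul]
    have h4 := hB u h1
    have h5 : ‖(27 : ℂ)‖ = 27 := by norm_num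
    rw [h5]
    linarith
  have hunit : ∀ a b c : V, ‖a‖ ≤ 1 → ‖b‖ ≤ 1 → ‖c‖ ≤ 1 → ‖φ a b c‖ ≤ 27 / 6 * B := by
    intro a b c ha hb hc
    have h1 : ∀ b' c' : V, ‖b'‖ ≤ 1 → ‖c'‖ ≤ 1 → ‖φ (a + b' + c') (a + b' + c') (a + b' + c')‖ ≤
        27 * B := by
      intro b' c' hb' hc'
      refine hQ _ ?_
      have h2 := norm_add₃_le (a := a) (b := b') (c := c')
      linarith
    have h2 := hcube a b c
    have h3 : ‖24 * φ a b c‖ ≤ 4 * (27 * B) := by
      rw [h2]
      have k1 := h1 b c hb hc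
      have k2 := h1 b (-c) hb (by rwa [norm_neg])
      have k3 := h1 (-b) c (by rwa [norm_neg]) hc
      have k4 := h1 (-b) (-c) (by rwa [norm_neg]) (by rwa [norm_neg])
      refine (norm_add_le _ _).trans ?_
      have k5 := norm_sub_le (φ (a + b + c) (a + b + c) (a + b + c) -
        φ (a + b + -c) (a + b + -c) (a + b + -c)) (φ (a + -b + c) (a + -b + c) (a + -b + c))
      have k6 := norm_sub_le (φ (a + b + c) (a + b + c) (a + b + c))
        (φ (a + b + -c) (a + b + -c) (a + b + -c))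
      linarith
    rw [norm_mul] at h3
    have h5 : ‖(24 : ℂ)‖ = 24 := by norm_num
    rw [h5] at h3
    linarith
  -- homogeneity
  have hz : ∀ b c, φ 0 b c = 0 := by
    intro b c
    have := hsmul 0 0 b c
    simpa using this
  by_cases ha : a = 0
  · rw [ha, hz]
    simp
  by_cases hb : b = 0
  · rw [hb, h12, hz]
    simp
  by_cases hc : c = 0
  · rw [hc, h13, hz]
    simp
  have hn : ∀ a : V, a ≠ 0 → ‖(((‖a‖⁻¹ : ℝ) : ℂ)) • a‖ ≤ 1 := by
    intro a ha
    rw [norm_smul, Complex.norm_real, norm_inv, norm_norm, inv_mul_cancel₀ (norm_ne_zero_iff.2 ha)]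
  have hs : ∀ a : V, a ≠ 0 → a = ((‖a‖ : ℝ) : ℂ) • ((((‖a‖⁻¹ : ℝ) : ℂ)) • a) := by
    intro a ha
    rw [smul_smul, ← Complex.ofReal_mul, mul_inv_cancel₀ (norm_ne_zero_iff.2 ha),
      Complex.ofReal_one, one_smul]
  have h1 := hunit _ _ _ (hn a ha) (hn b hb) (hn c hc)
  have h2 : φ a b c = ((‖a‖ : ℝ) : ℂ) * (((‖b‖ : ℝ) : ℂ) * (((‖c‖ : ℝ) : ℂ) *
      φ ((((‖a‖⁻¹ : ℝ) : ℂ)) • a) ((((‖b‖⁻¹ : ℝ) : ℂ)) • b) ((((‖c‖⁻¹ : ℝ) : ℂ)) • c))) := by
    conv_lhs => rw [hs a ha, hsmul, h12, hs b hb, hsmul, h12, h13, hs c hc, hsmul, h13]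
  rw [h2, norm_mul, norm_mul, norm_mul]
  simp only [Complex.norm_real, norm_norm]
  have h3 : 0 ≤ ‖a‖ * ‖b‖ * ‖c‖ := by positivity
  nlinarith

/-- The numerical estimate. -/
theorem num_le {C c ρ : ℝ} (hC : 0 ≤ C) (hc : 0 ≤ c) (hρ : 0 < ρ) (hρ1 : ρ ≤ 1) (d : ℕ) :
    96 * (3 / 2 * (C * (2 * ρ * (c / (π * ρ ^ 2) ^ d)) ^ 2 *
        (π * (2 * ρ * (c / (π * ρ ^ 2) ^ d)) ^ 2) ^ d / (π * (ρ / 4) ^ 2) ^ d + 1 + C) + 3) /
          ρ ^ 3 ≤
      96 * (3 / 2 * (C * (2 * c) ^ 2 * (64 * c ^ 2) ^ d + 1 + C) + 3) / ρ ^ (4 * d ^ 2 + 4 * d + 3) := by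
  have hπ : (1 : ℝ) ≤ π := by linarith [Real.two_le_pi]
  have hπ0 : (0 : ℝ) < π := Real.pi_pos
  set R := 2 * ρ * (c / (π * ρ ^ 2) ^ d) with hR
  have hR0 : 0 ≤ R := by positivity
  have hR1 : R * ρ ^ (2 * d) ≤ 2 * c * ρ := by
    have h1 : R * (π * ρ ^ 2) ^ d = 2 * c * ρ := by
      rw [hR]
      field_simp
    have h2 : (π * ρ ^ 2) ^ d = π ^ d * ρ ^ (2 * d) := by rw [mul_pow, ← pow_mul]
    rw [h2] at h1
    have h3 : (1 : ℝ) ≤ π ^ d := one_le_pow₀ hπ
    have h4 : 0 ≤ R * ρ ^ (2 * d) := by positivity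
    nlinarith
  have hq : (π * R ^ 2) ^ d / (π * (ρ / 4) ^ 2) ^ d = (16 * R ^ 2 / ρ ^ 2) ^ d := by
    rw [← div_pow]
    congr 1
    field_simp
    norm_num
  have h1 : C * R ^ 2 * (π * R ^ 2) ^ d / (π * (ρ / 4) ^ 2) ^ d * ρ ^ (4 * d ^ 2 + 4 * d) ≤
      C * (2 * c) ^ 2 * (64 * c ^ 2) ^ d := by
    rw [mul_div_assoc, hq]
    have h2 : ρ ^ (4 * d ^ 2 + 4 * d) = (ρ ^ (4 * d)) ^ d * (ρ ^ (2 * d)) ^ 2 := by
      rw [← pow_mul, ← pow_mul, ← pow_add]
      congr 1
      ring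
    rw [h2]
    have h3 : C * R ^ 2 * (16 * R ^ 2 / ρ ^ 2) ^ d * ((ρ ^ (4 * d)) ^ d * (ρ ^ (2 * d)) ^ 2) =
        C * (R * ρ ^ (2 * d)) ^ 2 * (16 * (R * ρ ^ (2 * d)) ^ 2 / ρ ^ 2) ^ d := by
      have h4 : (16 * (R * ρ ^ (2 * d)) ^ 2 / ρ ^ 2) ^ d =
          (16 * R ^ 2 / ρ ^ 2) ^ d * (ρ ^ (4 * d)) ^ d := by
        rw [← mul_pow]
        congr 1
        rw [mul_pow, ← pow_mul ρ (2 * d) 2, show 2 * d * 2 = 4 * d by ring]
        ring
      rw [h4]
      ring
    rw [h3]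
    have h5 : (R * ρ ^ (2 * d)) ^ 2 ≤ (2 * c * ρ) ^ 2 :=
      pow_le_pow_left₀ (by positivity) hR1 2
    have h6 : (2 * c * ρ) ^ 2 ≤ (2 * c) ^ 2 := by
      refine pow_le_pow_left₀ (by positivity) ?_ 2
      exact mul_le_of_le_one_right (by positivity) hρ1
    have h7 : 16 * (R * ρ ^ (2 * d)) ^ 2 / ρ ^ 2 ≤ 64 * c ^ 2 := by
      rw [div_le_iff₀ (by positivity)]
      nlinarith
    exact mul_le_mul (mul_le_mul_of_nonneg_left (h5.trans h6) hC)
      (pow_le_pow_left₀ (by positivity) h7 d) (by positivity) (by positivity)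
  rw [div_le_div_iff₀ (by positivity) (by positivity)]
  have h8 : ρ ^ (4 * d ^ 2 + 4 * d + 3) = ρ ^ (4 * d ^ 2 + 4 * d) * ρ ^ 3 := pow_add _ _ _
  have h9 : 0 < ρ ^ (4 * d ^ 2 + 4 * d) := by positivity
  have h10 : ρ ^ (4 * d ^ 2 + 4 * d) ≤ 1 := pow_le_one₀ hρ.le hρ1
  set X := C * R ^ 2 * (π * R ^ 2) ^ d / (π * (ρ / 4) ^ 2) ^ d with hX
  set Y := C * (2 * c) ^ 2 * (64 * c ^ 2) ^ d with hY
  rw [h8]
  have h11 : 96 * (3 / 2 * (X + 1 + C) + 3) * ρ ^ (4 * d ^ 2 + 4 * d) ≤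
      96 * (3 / 2 * (Y + 1 + C) + 3) := by
    nlinarith
  have h12 : 0 < ρ ^ 3 := by positivity
  nlinarith

end Vale.Agent.P281.H969.D
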