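import Vale.Agent.P281.H969.D.Circ
import Mathlib.MeasureTheory.Constructions.Pi
import Mathlib.MeasureTheory.Measure.Haar.InnerProductSpace
import Mathlib.MeasureTheory.Measure.Lebesgue.VolumeOfBalls
import Mathlib.Analysis.Complex.Isometry
import Mathlib.LinearAlgebra.Matrix.PosDef

/-!
# P281, project T-Δ (helper969): the `L¹` bound
-/

open Set Filter Metric Complex Real MeasureTheory
open scoped Topology ENNReal ComplexConjugate

noncomputable section

namespace Vale.Agent.P281.H969.D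

variable {d : ℕ}

/-- rotations preserve the measure of `ℂ ^ d` -/
theorem measurePreserving_rot (c : Circle) :
    MeasurePreserving (fun w : Fin d → ℂ => (c : ℂ) • w) volume volume := by
  have h1 : ∀ i : Fin d, MeasurePreserving (fun z : ℂ => (c : ℂ) * z) volume volume := fun i =>
    (rotation c).measurePreserving
  have h2 := volume_preserving_pi h1
  exact h2

/-- The average of a function over a ball, by the averages over the circles. -/
theorem lintegral_ball_le {F : (Fin d → ℂ) → ℝ≥0∞} (hF : Measurable F) {R : ℝ}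
    {b : ℝ≥0∞} (hb : ∀ w ∈ ball (0 : Fin d → ℂ) R,
      ∫⁻ θ in Ioc 0 (2 * π), F (circleMap 0 1 θ • w) ≤ ENNReal.ofReal (2 * π) * b) :
    ∫⁻ w in ball (0 : Fin d → ℂ) R, F w ≤ b * volume (ball (0 : Fin d → ℂ) R) := by
  have hrot : ∀ θ : ℝ, ∫⁻ w in ball (0 : Fin d → ℂ) R, F (circleMap 0 1 θ • w) =
      ∫⁻ w in ball (0 : Fin d → ℂ) R, F w := by
    intro θ
    have h1 : (circleMap 0 1 θ : ℂ) = (Circle.exp θ : ℂ) := by
      simp [circleMap]
    rw [h1]
    have h2 := (measurePreserving_rot (d := d) (Circle.exp θ)).setLIntegral_comp_preimage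
      (s := ball (0 : Fin d → ℂ) R) measurableSet_ball hF
    have h3 : (fun w : Fin d → ℂ => (Circle.exp θ : ℂ) • w) ⁻¹' ball 0 R = ball 0 R := by
      ext w
      simp [norm_smul]
    rw [h3] at h2
    exact h2
  have hmeas : Measurable fun p : ℝ × (Fin d → ℂ) => F (circleMap 0 1 p.1 • p.2) := by
    refine hF.comp ?_
    have h1 : Continuous fun p : ℝ × (Fin d → ℂ) => (circleMap 0 1 p.1 : ℂ) • p.2 :=
      ((continuous_circleMap 0 1).comp continuous_fst).smul continuous_snd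
    exact h1.measurable
  have h1 : ∫⁻ θ in Ioc 0 (2 * π), ∫⁻ w in ball (0 : Fin d → ℂ) R, F (circleMap 0 1 θ • w) =
      ∫⁻ w in ball (0 : Fin d → ℂ) R, ∫⁻ θ in Ioc 0 (2 * π), F (circleMap 0 1 θ • w) :=
    lintegral_lintegral_swap hmeas.aemeasurable
  have h2 : ∫⁻ θ in Ioc 0 (2 * π), ∫⁻ w in ball (0 : Fin d → ℂ) R, F (circleMap 0 1 θ • w) =
      ENNReal.ofReal (2 * π) * ∫⁻ w in ball (0 : Fin d → ℂ) R, F w := by
    simp only [hrot]
    rw [lintegral_const, Measure.restrict_apply_univ, Real.volume_Ioc, sub_zero, mul_comm]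
  have h3 : ∫⁻ w in ball (0 : Fin d → ℂ) R, ∫⁻ θ in Ioc 0 (2 * π), F (circleMap 0 1 θ • w) ≤
      ∫⁻ _ in ball (0 : Fin d → ℂ) R, ENNReal.ofReal (2 * π) * b :=
    setLIntegral_mono' measurableSet_ball hb
  rw [← h1, h2, lintegral_const, Measure.restrict_apply_univ, mul_assoc] at h3
  exact (ENNReal.mul_le_mul_iff_right (by positivity) ENNReal.ofReal_ne_top).1 h3

/-- The hermitian form with matrix `H`. -/
def hf (H : Matrix (Fin d) (Fin d) ℂ) (w w' : Fin d → ℂ) : ℂ :=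
  ∑ i, ∑ j, H i j * w i * conj (w' j)

theorem hf_smul_smul (H : Matrix (Fin d) (Fin d) ℂ) (t : ℂ) (w : Fin d → ℂ) :
    hf H (t • w) (t • w) = (‖t‖ ^ 2 : ℝ) * hf H w w := by
  rw [hf, hf, Finset.mul_sum]
  refine Finset.sum_congr rfl fun i _ => ?_
  rw [Finset.mul_sum]
  refine Finset.sum_congr rfl fun j _ => ?_
  rw [Pi.smul_apply, Pi.smul_apply, smul_eq_mul, smul_eq_mul, map_mul]
  have h1 : ((‖t‖ ^ 2 : ℝ) : ℂ) = t * conj t := by
    rw [Complex.mul_conj, Complex.normSq_eq_norm_sq]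
  rw [h1]
  ring

/-- `lam` is, near every point, `|θ|² e^(-H(z, z))`, with `θ` holomorphic. -/
def IsQuasi (H : Matrix (Fin d) (Fin d) ℂ) (lam : (Fin d → ℂ) → ℝ) : Prop :=
  ∀ z, ∃ θ : (Fin d → ℂ) → ℂ, AnalyticAt ℂ θ z ∧
    ∀ᶠ w in 𝓝 z, lam w = ‖θ w‖ ^ 2 * Real.exp (-(hf H w w).re)

theorem hf_sub (H : Matrix (Fin d) (Fin d) ℂ) (w z : Fin d → ℂ) :
    hf H (w - z) (w - z) = hf H w w - hf H w z - hf H z w + hf H z z := by
  simp only [hf, ← Finset.sum_sub_distrib, ← Finset.sum_add_distrib, Pi.sub_apply, map_sub]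
  refine Finset.sum_congr rfl fun i _ => Finset.sum_congr rfl fun j _ => ?_
  ring

theorem hf_conj {H : Matrix (Fin d) (Fin d) ℂ} (hH : H.IsHermitian) (w z : Fin d → ℂ) :
    hf H z w = conj (hf H w z) := by
  rw [hf, hf, map_sum, Finset.sum_comm]
  refine Finset.sum_congr rfl fun i _ => ?_
  rw [map_sum]
  refine Finset.sum_congr rfl fun j _ => ?_
  rw [map_mul, map_mul, Complex.conj_conj]
  have h1 : conj (H i j) = H j i := by
    have h2 := congrFun (congrFun hH j) i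
    rw [Matrix.conjTranspose_apply] at h2
    exact h2
  rw [h1]
  ring

theorem analyticAt_hf (H : Matrix (Fin d) (Fin d) ℂ) (z w : Fin d → ℂ) :
    AnalyticAt ℂ (fun w => hf H w z) w := by
  unfold hf
  refine Finset.analyticAt_fun_sum _ fun i _ => Finset.analyticAt_fun_sum _ fun j _ => ?_
  have h1 : AnalyticAt ℂ (fun w : Fin d → ℂ => w i) w :=
    (ContinuousLinearMap.proj (R := ℂ) (φ := fun _ : Fin d => ℂ) i).analyticAt w
  exact (analyticAt_const.mul h1).mul analyticAt_const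

/-- Change of the origin. -/
theorem IsQuasi.shift {H : Matrix (Fin d) (Fin d) ℂ} (hH : H.IsHermitian)
    {lam : (Fin d → ℂ) → ℝ} (h : IsQuasi H lam) (z₀ : Fin d → ℂ) (z : Fin d → ℂ) :
    ∃ θ : (Fin d → ℂ) → ℂ, AnalyticAt ℂ θ z ∧
      ∀ᶠ w in 𝓝 z, lam w = ‖θ w‖ ^ 2 * Real.exp (-(hf H (w - z₀) (w - z₀)).re) := by
  obtain ⟨θ, h1, h2⟩ := h z
  refine ⟨fun w => θ w * Complex.exp (-hf H w z₀ + hf H z₀ z₀ / 2), h1.mul
    (AnalyticAt.cexp ((analyticAt_hf H z₀ z).neg.add analyticAt_const)), ?_⟩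
  filter_upwards [h2] with w hw
  rw [hw, norm_mul, mul_pow, Complex.norm_exp, ← Real.exp_nat_mul, mul_assoc, ← Real.exp_add]
  congr 2
  rw [hf_sub]
  have h3 : (hf H z₀ w).re = (hf H w z₀).re := by rw [hf_conj hH w z₀, Complex.conj_re]
  simp only [Complex.add_re, Complex.sub_re, Complex.neg_re]
  have h4 : (hf H z₀ z₀ / 2).re = (hf H z₀ z₀).re / 2 := by
    rw [show (2 : ℂ) = ((2 : ℝ) : ℂ) by norm_num, Complex.div_ofReal_re]
  rw [h3, h4]
  push_cast
  ring

/-- The averages of `log lam` over the circles. -/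
theorem IsQuasi.circle {H : Matrix (Fin d) (Fin d) ℂ} (hH : H.IsHermitian)
    {lam : (Fin d → ℂ) → ℝ} (h : IsQuasi H lam) (hle : ∀ z, lam z ≤ 1) (h0 : ∀ z, 0 ≤ lam z)
    {z₀ : Fin d → ℂ} (hz₀ : lam z₀ = 1) {w : Fin d → ℂ} (hw : 0 ≤ (hf H w w).re) :
    ∫⁻ θ in Ioc 0 (2 * π), ENNReal.ofReal (-Real.log (lam (z₀ + circleMap 0 1 θ • w))) ≤
      ENNReal.ofReal (2 * π) * ENNReal.ofReal (hf H w w).re := by
  set μ : ℂ → ℝ := fun t => √(lam (z₀ + t • w) * Real.exp (‖t‖ ^ 2 * (hf H w w).re)) with hμ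
  have hloc : ∀ R, LocHol μ (closedBall 0 R) := by
    intro R t _
    obtain ⟨θ, h1, h2⟩ := h.shift hH z₀ (z₀ + t • w)
    have h3 : AnalyticAt ℂ (fun t : ℂ => z₀ + t • w) t := by fun_prop
    refine ⟨fun t => θ (z₀ + t • w), AnalyticAt.fun_comp (g := θ) h1 h3, ?_⟩
    filter_upwards [h3.continuousAt.eventually h2] with s hs
    show √(lam (z₀ + s • w) * Real.exp (‖s‖ ^ 2 * (hf H w w).re)) = _
    rw [hs, add_sub_cancel_left, hf_smul_smul, Complex.re_ofReal_mul, mul_assoc, ← Real.exp_add,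
      neg_add_cancel, Real.exp_zero, mul_one, Real.sqrt_sq (norm_nonneg _)]
  have hμ0 : μ 0 = 1 := by simp [hμ, hz₀]
  obtain ⟨h1, h2⟩ := (hloc 2).le_circleAverage one_pos one_lt_two (by rw [hμ0]; exact one_ne_zero)
  rw [hμ0, Real.log_one] at h2
  have h3 : ∀ θ : ℝ, -Real.log (lam (z₀ + circleMap 0 1 θ • w)) ≤
      (hf H w w).re - 2 * Real.log (μ (circleMap 0 1 θ)) ∧
      0 ≤ (hf H w w).re - 2 * Real.log (μ (circleMap 0 1 θ)) := by
    intro θ
    have h4 : ‖(circleMap 0 1 θ : ℂ)‖ = 1 := by simp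
    have h5 : μ (circleMap 0 1 θ) =
        √(lam (z₀ + circleMap 0 1 θ • w) * Real.exp ((hf H w w).re)) := by
      rw [hμ]
      show √(lam (z₀ + circleMap 0 1 θ • w) *
        Real.exp (‖(circleMap 0 1 θ : ℂ)‖ ^ 2 * (hf H w w).re)) = _
      rw [h4, one_pow, one_mul]
    rw [h5]
    rcases (h0 (z₀ + circleMap 0 1 θ • w)).eq_or_lt with h6 | h6
    · rw [← h6]
      simp [hw]
    · have h7 : 2 * Real.log (√(lam (z₀ + circleMap 0 1 θ • w) * Real.exp ((hf H w w).re))) =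
          Real.log (lam (z₀ + circleMap 0 1 θ • w)) + (hf H w w).re := by
        rw [Real.log_sqrt (mul_nonneg h6.le (Real.exp_pos _).le),
          Real.log_mul h6.ne' (Real.exp_pos _).ne', Real.log_exp]
        ring
      rw [h7]
      have h8 : Real.log (lam (z₀ + circleMap 0 1 θ • w)) ≤ 0 :=
        Real.log_nonpos h6.le (hle _)
      constructor <;> linarith
  have h4 : IntegrableOn (fun θ : ℝ => Real.log (μ (circleMap 0 1 θ))) (Ioc 0 (2 * π)) := h1.1
  have h5 : IntegrableOn (fun θ : ℝ => (hf H w w).re - 2 * Real.log (μ (circleMap 0 1 θ)))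
      (Ioc 0 (2 * π)) := (integrable_const _).sub (h4.const_mul 2)
  have h6 : ∫ θ in Ioc 0 (2 * π), ((hf H w w).re - 2 * Real.log (μ (circleMap 0 1 θ))) ≤
      2 * π * (hf H w w).re := by
    rw [integral_sub (integrable_const _) (h4.const_mul 2), integral_const_mul]
    have h7 : 0 ≤ ∫ θ in Ioc 0 (2 * π), Real.log (μ (circleMap 0 1 θ)) := by
      rw [circleAverage_def, intervalIntegral.integral_of_le (by positivity), smul_eq_mul] at h2
      exact (mul_nonneg_iff_of_pos_left (by positivity)).1 h2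
    rw [integral_const, measureReal_restrict_apply_univ, Real.volume_real_Ioc, smul_eq_mul]
    rw [sub_zero, max_eq_left (by positivity)]
    linarith
  calc ∫⁻ θ in Ioc 0 (2 * π), ENNReal.ofReal (-Real.log (lam (z₀ + circleMap 0 1 θ • w)))
      ≤ ∫⁻ θ in Ioc 0 (2 * π),
          ENNReal.ofReal ((hf H w w).re - 2 * Real.log (μ (circleMap 0 1 θ))) :=
        lintegral_mono fun θ => ENNReal.ofReal_le_ofReal (h3 θ).1
    _ = ENNReal.ofReal (∫ θ in Ioc 0 (2 * π),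
          ((hf H w w).re - 2 * Real.log (μ (circleMap 0 1 θ)))) :=
        (ofReal_integral_eq_lintegral_ofReal h5 (Eventually.of_forall fun θ => (h3 θ).2)).symm
    _ ≤ ENNReal.ofReal (2 * π * (hf H w w).re) := ENNReal.ofReal_le_ofReal h6
    _ = _ := ENNReal.ofReal_mul (by positivity)

/-- **The `L¹` bound** over balls. -/
theorem IsQuasi.lintegral_le {H : Matrix (Fin d) (Fin d) ℂ} (hH : H.IsHermitian)
    {lam : (Fin d → ℂ) → ℝ} (h : IsQuasi H lam) (hm : Measurable lam) (hle : ∀ z, lam z ≤ 1)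
    (h0 : ∀ z, 0 ≤ lam z) {z₀ : Fin d → ℂ} (hz₀ : lam z₀ = 1) {C : ℝ} (hC0 : 0 ≤ C)
    (hw : ∀ w, 0 ≤ (hf H w w).re) (hC : ∀ w, (hf H w w).re ≤ C * ‖w‖ ^ 2) (R : ℝ) :
    ∫⁻ w in ball z₀ R, ENNReal.ofReal (-Real.log (lam w)) ≤
      ENNReal.ofReal (C * R ^ 2) * volume (ball (0 : Fin d → ℂ) R) := by
  have h1 : ∫⁻ w in ball z₀ R, ENNReal.ofReal (-Real.log (lam w)) =
      ∫⁻ w in ball (0 : Fin d → ℂ) R, ENNReal.ofReal (-Real.log (lam (z₀ + w))) := by
    have h2 := (measurePreserving_add_left volume z₀).setLIntegral_comp_preimage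
      (s := ball z₀ R) measurableSet_ball
      (f := fun w => ENNReal.ofReal (-Real.log (lam w))) (by fun_prop)
    have h3 : (fun w : Fin d → ℂ => z₀ + w) ⁻¹' ball z₀ R = ball 0 R := by
      ext w
      simp
    rw [h3] at h2
    exact h2.symm
  rw [h1]
  refine lintegral_ball_le (by fun_prop) fun w hwR => ?_
  refine (h.circle hH hle h0 hz₀ (hw w)).trans ?_
  refine mul_le_mul_right (ENNReal.ofReal_le_ofReal ((hC w).trans ?_)) _
  refine mul_le_mul_of_nonneg_left ?_ hC0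
  rw [mem_ball_zero_iff] at hwR
  exact pow_le_pow_left₀ (norm_nonneg _) hwR.le 2

/-- **The `L¹` bound** over sets which are injective modulo the lattice. -/
theorem IsQuasi.lintegral_le_of_inj {H : Matrix (Fin d) (Fin d) ℂ} (hH : H.IsHermitian)
    {lam : (Fin d → ℂ) → ℝ} (h : IsQuasi H lam) (hm : Measurable lam) (hle : ∀ z, lam z ≤ 1)
    (h0 : ∀ z, 0 ≤ lam z) {z₀ : Fin d → ℂ} (hz₀ : lam z₀ = 1) {C : ℝ} (hC0 : 0 ≤ C)
    (hw : ∀ w, 0 ≤ (hf H w w).re) (hC : ∀ w, (hf H w w).re ≤ C * ‖w‖ ^ 2) {R : ℝ}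
    (L : AddSubgroup (Fin d → ℂ)) [Countable L] (hper : ∀ z, ∀ γ ∈ L, lam (z + γ) = lam z)
    (hR : ∀ z, ∃ γ ∈ L, ‖z - γ‖ < R) {A : Set (Fin d → ℂ)} (hA : MeasurableSet A)
    (hinj : ∀ z ∈ A, ∀ z' ∈ A, z - z' ∈ L → z = z') :
    ∫⁻ w in A, ENNReal.ofReal (-Real.log (lam w)) ≤
      ENNReal.ofReal (C * R ^ 2) * volume (ball (0 : Fin d → ℂ) R) := by
  refine le_trans ?_ (h.lintegral_le hH hm hle h0 hz₀ hC0 hw hC R)
  set F : (Fin d → ℂ) → ℝ≥0∞ := fun w => ENNReal.ofReal (-Real.log (lam w)) with hF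
  have hFm : Measurable F := by fun_prop
  have hFp : ∀ z, ∀ γ ∈ L, F (z + γ) = F z := fun z γ hγ => by
    simp only [hF]
    rw [hper z γ hγ]
  have h1 : A ⊆ ⋃ γ : L, A ∩ (fun z => z + (γ : Fin d → ℂ)) ⁻¹' ball z₀ R := by
    intro z hz
    obtain ⟨γ, hγ, hγR⟩ := hR (z - z₀)
    refine mem_iUnion.2 ⟨-⟨γ, hγ⟩, hz, ?_⟩
    show z + -γ ∈ ball z₀ R
    rw [mem_ball_iff_norm]
    rwa [show z + -γ - z₀ = z - z₀ - γ by abel]
  calc ∫⁻ w in A, F w ≤ ∫⁻ w in ⋃ γ : L, A ∩ (fun z => z + (γ : Fin d → ℂ)) ⁻¹' ball z₀ R, F w :=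
        lintegral_mono_set h1
    _ ≤ ∑' γ : L, ∫⁻ w in A ∩ (fun z => z + (γ : Fin d → ℂ)) ⁻¹' ball z₀ R, F w :=
        lintegral_iUnion_le _ _
    _ = ∑' γ : L, ∫⁻ w in (fun z => z + -(γ : Fin d → ℂ)) ⁻¹' A ∩ ball z₀ R, F w := by
        refine tsum_congr fun γ => ?_
        have h2 := (measurePreserving_add_right volume (γ : Fin d → ℂ)).setLIntegral_comp_preimage
          (s := (fun z => z + -(γ : Fin d → ℂ)) ⁻¹' A ∩ ball z₀ R)
          ((measurable_add_const _ hA).inter measurableSet_ball) hFm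
        rw [← h2]
        have h3 : (fun z : Fin d → ℂ => z + (γ : Fin d → ℂ)) ⁻¹'
            ((fun z => z + -(γ : Fin d → ℂ)) ⁻¹' A ∩ ball z₀ R) =
            A ∩ (fun z => z + (γ : Fin d → ℂ)) ⁻¹' ball z₀ R := by
          ext z
          simp
        rw [h3]
        exact lintegral_congr fun z => (hFp z γ γ.2).symm
    _ = ∫⁻ w in ⋃ γ : L, (fun z => z + -(γ : Fin d → ℂ)) ⁻¹' A ∩ ball z₀ R, F w := by
        rw [lintegral_iUnion]
        · exact fun γ => (measurable_add_const _ hA).inter measurableSet_ball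
        · intro γ γ' hne
          refine Set.disjoint_left.2 fun z hz hz' => hne ?_
          have h4 := hinj _ hz.1 _ hz'.1 (by
            show z + -(γ : Fin d → ℂ) - (z + -(γ' : Fin d → ℂ)) ∈ L
            rw [show z + -(γ : Fin d → ℂ) - (z + -(γ' : Fin d → ℂ)) = γ' - γ by abel]
            exact L.sub_mem γ'.2 γ.2)
          have h5 : z + -(γ : Fin d → ℂ) = z + -(γ' : Fin d → ℂ) := h4
          exact Subtype.ext (neg_injective (add_left_cancel h5))
    _ ≤ ∫⁻ w in ball z₀ R, F w := lintegral_mono_set (iUnion_subset fun γ => inter_subset_right)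

end Vale.Agent.P281.H969.D
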