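import Mathlib.Analysis.Complex.JensenFormula
import Mathlib.Analysis.Complex.Harmonic.Analytic

/-!
# P281, project T-Δ (helper969): functions of one variable which are locally `|holomorphic|`
-/

open Set Filter Metric Complex Real
open scoped Topology

noncomputable section

namespace Vale.Agent.P281.H969.D

/-- `μ` is, near each point of `U`, the absolute value of a holomorphic function. -/
def LocHol (μ : ℂ → ℝ) (U : Set ℂ) : Prop :=
  ∀ a ∈ U, ∃ g : ℂ → ℂ, AnalyticAt ℂ g a ∧ ∀ᶠ t in 𝓝 a, μ t = ‖g t‖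

theorem LocHol.eventually {μ : ℂ → ℝ} {R : ℝ} (h : LocHol μ (closedBall 0 R)) (hR : 0 ≤ R)
    (h0 : μ 0 ≠ 0) : ∀ a ∈ closedBall (0 : ℂ) R, ∀ᶠ t in 𝓝[≠] a, μ t ≠ 0 := by
  have hA : IsOpen {a : ℂ | ∀ᶠ t in 𝓝 a, μ t = 0} := isOpen_setOfPred_eventually_nhds
  have hB : IsOpen {a : ℂ | ∀ᶠ t in 𝓝[≠] a, μ t ≠ 0} := by
    rw [isOpen_iff_mem_nhds]
    intro a ha
    have h1 : ∀ᶠ b in 𝓝[≠] a, ∀ᶠ t in 𝓝 b, μ t ≠ 0 := by
      have h2 := eventually_eventually_nhdsWithin.2 ha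
      filter_upwards [h2, self_mem_nhdsWithin] with b hb hba
      rwa [IsOpen.nhdsWithin_eq isOpen_compl_singleton hba] at hb
    rw [eventually_nhdsWithin_iff] at h1
    filter_upwards [h1] with b hb
    by_cases hba : b = a
    · subst hba
      exact ha
    · exact (hb hba).filter_mono nhdsWithin_le_nhds
  have hcov : closedBall (0 : ℂ) R ⊆ {a : ℂ | ∀ᶠ t in 𝓝 a, μ t = 0} ∪
      {a : ℂ | ∀ᶠ t in 𝓝[≠] a, μ t ≠ 0} := by
    intro a ha
    obtain ⟨g, hg, he⟩ := h a ha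
    rcases hg.eventually_eq_zero_or_eventually_ne_zero with h1 | h1
    · left
      show ∀ᶠ t in 𝓝 a, μ t = 0
      filter_upwards [h1, he] with t ht ht'
      rw [ht', ht, norm_zero]
    · right
      show ∀ᶠ t in 𝓝[≠] a, μ t ≠ 0
      filter_upwards [h1, he.filter_mono nhdsWithin_le_nhds] with t ht ht'
      rw [ht']
      exact norm_ne_zero_iff.2 ht
  have h0m : (0 : ℂ) ∈ closedBall (0 : ℂ) R := by simpa using hR
  have h0B : (0 : ℂ) ∈ {a : ℂ | ∀ᶠ t in 𝓝[≠] a, μ t ≠ 0} := by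
    rcases hcov h0m with h1 | h1
    · exact absurd h1.self_of_nhds h0
    · exact h1
  intro a ha
  rcases hcov ha with h1 | h1
  · exfalso
    obtain ⟨b, -, hb1, hb2⟩ := (convex_closedBall (0 : ℂ) R).isPreconnected _ _ hA hB hcov
      ⟨a, ha, h1⟩ ⟨0, h0m, h0B⟩
    have h3 : ∀ᶠ t in 𝓝[≠] b, False := by
      filter_upwards [hb2, (show ∀ᶠ t in 𝓝 b, μ t = 0 from hb1).filter_mono nhdsWithin_le_nhds]
        with t h4 h5 using h4 h5
    exact h3.exists.elim fun _ h => h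
  · exact h1

/-- Functions which are locally `|holomorphic|` are `|holomorphic|` on discs. -/
theorem LocHol.exists_hol {μ : ℂ → ℝ} {R : ℝ} (h : LocHol μ (closedBall 0 R)) (hR : 0 < R)
    (h0 : μ 0 ≠ 0) : ∃ f : ℂ → ℂ, AnalyticOnNhd ℂ f (ball 0 R) ∧ ∀ t ∈ ball (0 : ℂ) R,
      μ t = ‖f t‖ := by
  classical
  have hne := h.eventually hR.le h0
  have hord : ∀ a ∈ closedBall (0 : ℂ) R, ∃ (n : ℕ) (k : ℂ → ℂ), AnalyticAt ℂ k a ∧ k a ≠ 0 ∧
      ∀ᶠ t in 𝓝 a, μ t = ‖t - a‖ ^ n * ‖k t‖ := by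
    intro a ha
    obtain ⟨g, hg, he⟩ := h a ha
    have h1 : ¬ ∀ᶠ t in 𝓝 a, g t = 0 := by
      intro h2
      have h3 : ∀ᶠ t in 𝓝[≠] a, False := by
        filter_upwards [hne a ha, h2.filter_mono nhdsWithin_le_nhds,
          he.filter_mono nhdsWithin_le_nhds] with t h4 h5 h6
        rw [h6, h5, norm_zero] at h4
        exact h4 rfl
      exact h3.exists.elim fun _ h => h
    obtain ⟨n, k, hk, hk0, hke⟩ := hg.exists_eventuallyEq_pow_smul_nonzero_iff.2 h1
    refine ⟨n, k, hk, hk0, ?_⟩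
    filter_upwards [he, hke] with t h4 h5
    rw [h4, h5, smul_eq_mul, norm_mul, norm_pow]
  choose! n k hk hk0 hke using hord
  -- the zeros
  obtain ⟨s, hs, hsc⟩ := (isCompact_closedBall (0 : ℂ) R).elim_nhds_subcover
    (fun a => {t | t ≠ a → μ t ≠ 0}) fun a ha => by
      have h1 := hne a ha
      rw [eventually_nhdsWithin_iff] at h1
      exact h1
  set Z := s.filter fun a => μ a = 0 with hZ
  have hZm : ∀ a ∈ closedBall (0 : ℂ) R, a ∉ Z → μ a ≠ 0 := by
    intro a ha haZ hμ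
    obtain ⟨b, hb, hab⟩ := mem_iUnion₂.1 (hsc ha)
    by_cases hab' : a = b
    · subst hab'
      exact haZ (Finset.mem_filter.2 ⟨hb, hμ⟩)
    · exact hab hab' hμ
  have hn0 : ∀ a ∈ closedBall (0 : ℂ) R, a ∉ Z → n a = 0 := by
    intro a ha haZ
    by_contra hn
    have h1 := (hke a ha).self_of_nhds
    rw [sub_self, norm_zero, zero_pow hn, zero_mul] at h1
    exact hZm a ha haZ h1
  set p : ℂ → ℂ := fun t => ∏ a ∈ Z, (t - a) ^ n a with hp
  have hpa : ∀ t, AnalyticAt ℂ p t := fun t => by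
    refine Finset.analyticAt_fun_prod _ fun a _ => ?_
    fun_prop
  have hloc : ∀ b ∈ closedBall (0 : ℂ) R, ∃ K : ℂ → ℂ, AnalyticAt ℂ K b ∧ K b ≠ 0 ∧
      ∀ᶠ t in 𝓝 b, μ t = ‖p t‖ * ‖K t‖ := by
    intro b hb
    set q : ℂ → ℂ := fun t => ∏ a ∈ Z.erase b, (t - a) ^ n a with hq
    have hqa : AnalyticAt ℂ q b := by
      refine Finset.analyticAt_fun_prod _ fun a _ => ?_
      fun_prop
    have hq0 : q b ≠ 0 := Finset.prod_ne_zero_iff.2 fun a ha =>
      pow_ne_zero _ (sub_ne_zero.2 (Finset.ne_of_mem_erase ha).symm)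
    have hpq : ∀ t, p t = (t - b) ^ n b * q t := by
      intro t
      by_cases hbZ : b ∈ Z
      · exact (Finset.mul_prod_erase Z (fun a => (t - a) ^ n a) hbZ).symm
      · simp only [hp, hq]
        rw [hn0 b hb hbZ, pow_zero, one_mul, Finset.erase_eq_of_notMem hbZ]
    refine ⟨fun t => k b t / q t, (hk b hb).fun_div hqa hq0, div_ne_zero (hk0 b hb) hq0, ?_⟩
    filter_upwards [hke b hb, hqa.continuousAt.eventually_ne hq0] with t h1 h2
    rw [h1, hpq, norm_mul, norm_pow, norm_div, mul_assoc,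
      mul_div_cancel₀ _ (norm_ne_zero_iff.2 h2)]
  choose! K hK hK0 hKe using hloc
  have hZb : ∀ b : ℂ, ∀ᶠ t in 𝓝[≠] b, p t ≠ 0 := by
    intro b
    have h1 : ∀ a ∈ Z, ∀ᶠ t in 𝓝[≠] b, t ≠ a := by
      intro a _
      by_cases hab : a = b
      · subst hab
        exact self_mem_nhdsWithin
      · exact (show ∀ᶠ t in 𝓝 b, t ≠ a from isOpen_ne.mem_nhds (Ne.symm hab)).filter_mono
          nhdsWithin_le_nhds
    filter_upwards [(Finset.eventually_all Z).2 h1] with t ht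
    exact Finset.prod_ne_zero_iff.2 fun a ha => pow_ne_zero _ (sub_ne_zero.2 (ht a ha))
  have hν : ∀ b ∈ ball (0 : ℂ) R, ∀ᶠ t in 𝓝 b, ‖K t t‖ = ‖K b t‖ := by
    intro b hb
    have h1 := hZb b
    rw [eventually_nhdsWithin_iff] at h1
    filter_upwards [h1, hKe b (ball_subset_closedBall hb), isOpen_ball.mem_nhds hb]
      with t h2 h3 h4
    by_cases htb : t = b
    · rw [htb]
    · have h5 := (hKe t (ball_subset_closedBall h4)).self_of_nhds
      rw [h3] at h5
      exact (mul_left_cancel₀ (norm_ne_zero_iff.2 (h2 htb)) h5).symm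
  have hharm : InnerProductSpace.HarmonicOnNhd (fun t => Real.log ‖K t t‖) (ball (0 : ℂ) R) := by
    intro b hb
    have h1 := (hK b (ball_subset_closedBall hb)).harmonicAt_log_norm
      (hK0 b (ball_subset_closedBall hb))
    refine (InnerProductSpace.harmonicAt_congr_nhds ?_).2 h1
    filter_upwards [hν b hb] with t ht
    show Real.log ‖K t t‖ = Real.log ‖K b t‖
    rw [ht]
  obtain ⟨F, hF, hFr⟩ := hharm.exists_analyticOnNhd_ball_re_eq
  refine ⟨fun t => p t * Complex.exp (F t), fun t ht => (hpa t).mul (hF t ht).cexp, ?_⟩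
  intro t ht
  have h1 := hFr ht
  have h2 := (hKe t (ball_subset_closedBall ht)).self_of_nhds
  rw [h2, norm_mul, Complex.norm_exp]
  congr 1
  have h3 : (F t).re = Real.log ‖K t t‖ := h1
  rw [h3, Real.exp_log (norm_pos_iff.2 (hK0 t (ball_subset_closedBall ht)))]

/-- The sub-mean value property. -/
theorem LocHol.le_circleAverage {μ : ℂ → ℝ} {R R₂ : ℝ} (h : LocHol μ (closedBall 0 R₂))
    (hR : 0 < R) (hR₂ : R < R₂) (h0 : μ 0 ≠ 0) :
    CircleIntegrable (fun t => Real.log (μ t)) 0 R ∧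
      Real.log (μ 0) ≤ circleAverage (fun t => Real.log (μ t)) 0 R := by
  obtain ⟨f, hf, hfe⟩ := h.exists_hol (hR.trans hR₂) h0
  have hsub : closedBall (0 : ℂ) |R| ⊆ ball 0 R₂ := by
    rw [abs_of_pos hR]
    exact closedBall_subset_ball hR₂
  have hsph : sphere (0 : ℂ) |R| ⊆ ball 0 R₂ := sphere_subset_closedBall.trans hsub
  have h1 : EqOn (fun t => Real.log (μ t)) (fun t => Real.log ‖f t‖) (sphere 0 |R|) :=
    fun t ht => by
      show Real.log (μ t) = Real.log ‖f t‖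
      rw [hfe t (hsph ht)]
  have h2 : CircleIntegrable (fun t => Real.log ‖f t‖) 0 R :=
    (hf.mono hsph).meromorphicOn.circleIntegrable_log_norm
  have hf0 : f 0 ≠ 0 := by
    have h3 := hfe 0 (mem_ball_self (hR.trans hR₂))
    intro h4
    rw [h4, norm_zero] at h3
    exact h0 h3
  refine ⟨(circleIntegrable_congr h1).2 h2, ?_⟩
  rw [circleAverage_congr_sphere h1, AnalyticOnNhd.circleAverage_log_norm hR.ne' (hf.mono hsub) hf0,
    hfe 0 (mem_ball_self (hR.trans hR₂))]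
  refine le_add_of_nonneg_left (finsum_nonneg fun u => ?_)
  by_cases hu : u ∈ closedBall (0 : ℂ) |R|
  · refine mul_nonneg ?_ ?_
    · exact_mod_cast MeromorphicOn.AnalyticOnNhd.divisor_nonneg (hf.mono hsub) u
    · rcases eq_or_ne u 0 with rfl | hu0
      · simp
      · have h3 : 0 < ‖u‖ := norm_pos_iff.2 hu0
        have h4 : ‖u‖ ≤ R := by
          rw [mem_closedBall_zero_iff, abs_of_pos hR] at hu
          exact hu
        rw [zero_sub, norm_neg]
        refine Real.log_nonneg ?_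
        rw [← div_eq_mul_inv, one_le_div h3]
        exact h4
  · rw [Function.locallyFinsuppWithin.apply_eq_zero_of_notMem _ hu]
    simp

end Vale.Agent.P281.H969.D
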