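import Vale.Agent.P281.H969.D.Final
import Mathlib.Analysis.Normed.Module.Multilinear.Basic
import Mathlib.Analysis.Calculus.FDeriv.Symmetric

/-!
# P281, project T-Δ (helper969): D4 in other letters
-/

open Set Filter Metric Complex Real MeasureTheory
open scoped Topology ENNReal ComplexConjugate ContDiff

noncomputable section

namespace Vale.Agent.P281.H969.D

variable {d n : ℕ} {V : Type} [NormedAddCommGroup V] [InnerProductSpace ℂ V]

/-- The Hermitian form of a symmetric operator. -/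
theorem isHerm_op {A : V →L[ℂ] V} (hA : ∀ v w, inner ℂ (A v) w = inner ℂ v (A w)) :
    IsHerm fun v w => inner ℂ w (A v) where
  add := fun v v' w => by rw [map_add, inner_add_right]
  smul := fun c v w => by rw [map_smul, inner_smul_right]
  symm := fun v w => by
    rw [← hA, inner_conj_symm]

/-- The Hermitian form of an alternating form `E` on the periods. -/
def frm (P : (Fin n → ℝ) ≃L[ℝ] V) (E : (Fin n → ℝ) →L[ℝ] (Fin n → ℝ) →L[ℝ] ℝ) (v w : V) : ℂ :=
  (E (P.symm (Complex.I • v)) (P.symm w) : ℂ) + Complex.I * (E (P.symm v) (P.symm w) : ℂ)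

theorem frm_re (P : (Fin n → ℝ) ≃L[ℝ] V) (E : (Fin n → ℝ) →L[ℝ] (Fin n → ℝ) →L[ℝ] ℝ) (v w : V) :
    (frm P E v w).re = E (P.symm (Complex.I • v)) (P.symm w) := by
  simp [frm]

theorem frm_im (P : (Fin n → ℝ) ≃L[ℝ] V) (E : (Fin n → ℝ) →L[ℝ] (Fin n → ℝ) →L[ℝ] ℝ) (v w : V) :
    (frm P E v w).im = E (P.symm v) (P.symm w) := by
  simp [frm]

theorem isHerm_frm {P : (Fin n → ℝ) ≃L[ℝ] V} {E : (Fin n → ℝ) →L[ℝ] (Fin n → ℝ) →L[ℝ] ℝ}
    (halt : ∀ x x', E x x' = -E x' x)
    (hJ : ∀ x x', E (P.symm (Complex.I • P x)) (P.symm (Complex.I • P x')) = E x x') :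
    IsHerm (frm P E) where
  add := fun v v' w => by
    simp only [frm, smul_add, map_add, add_apply]
    push_cast
    ring
  smul := fun c v w => by
    have hr : ∀ (a : ℝ) (v : V), (a : ℂ) • v = a • v := fun a v => (Complex.coe_smul a v)
    have h1 : c • v = c.re • v + c.im • (Complex.I • v) := by
      conv_lhs => rw [← Complex.re_add_im c, add_smul, mul_smul, hr, hr]
    have h2 : Complex.I • c • v = c.re • (Complex.I • v) - c.im • v := by
      rw [smul_smul, ← hr, ← hr, smul_smul, ← sub_smul]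
      congr 1
      apply Complex.ext <;> simp
    have hs : ∀ (a : ℝ) (v : V), P.symm (a • v) = a • P.symm v := fun a v => map_smul P.symm a v
    have h3 : P.symm (c • v) = c.re • P.symm v + c.im • P.symm (Complex.I • v) := by
      rw [h1, map_add, hs, hs]
    have h4 : P.symm (Complex.I • c • v) = c.re • P.symm (Complex.I • v) - c.im • P.symm v := by
      rw [h2, map_sub, hs, hs]
    simp only [frm]
    rw [h3, h4]
    simp only [map_add, map_sub, map_smul, add_apply, sub_apply, smul_apply, smul_eq_mul]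
    apply Complex.ext
    · simp
    · simp
  symm := fun v w => by
    have h1 : E (P.symm (Complex.I • w)) (P.symm v) = E (P.symm (Complex.I • v)) (P.symm w) := by
      have h2 := hJ (P.symm (Complex.I • w)) (P.symm v)
      rw [ContinuousLinearEquiv.apply_symm_apply, ContinuousLinearEquiv.apply_symm_apply,
        smul_smul, Complex.I_mul_I, neg_one_smul, map_neg, map_neg, neg_apply] at h2
      rw [← h2, halt, neg_neg]
    have h3 := halt (P.symm w) (P.symm v)
    apply Complex.ext
    · rw [frm_re, h1, Complex.conj_re, frm_re]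
    · rw [frm_im, h3, Complex.conj_im, frm_im]

/-- The Hermitian form of an alternating form `E` on `V` (helper383's `D2b`). -/
def frv (E : V →L[ℝ] V →L[ℝ] ℝ) (v w : V) : ℂ :=
  (E (Complex.I • v) w : ℂ) + Complex.I * (E v w : ℂ)

theorem frv_re (E : V →L[ℝ] V →L[ℝ] ℝ) (v w : V) : (frv E v w).re = E (Complex.I • v) w := by
  simp [frv]

theorem frv_im (E : V →L[ℝ] V →L[ℝ] ℝ) (v w : V) : (frv E v w).im = E v w := by
  simp [frv]

theorem isHerm_frv {E : V →L[ℝ] V →L[ℝ] ℝ} (halt : ∀ v, E v v = 0)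
    (hJ : ∀ v w, E (Complex.I • v) (Complex.I • w) = E v w) : IsHerm (frv E) where
  add := fun v v' w => by
    simp only [frv, smul_add, map_add, add_apply]
    push_cast
    ring
  smul := fun c v w => by
    have hr : ∀ (a : ℝ) (v : V), (a : ℂ) • v = a • v := fun a v => (Complex.coe_smul a v)
    have h1 : c • v = c.re • v + c.im • (Complex.I • v) := by
      conv_lhs => rw [← Complex.re_add_im c, add_smul, mul_smul, hr, hr]
    have h2 : Complex.I • c • v = c.re • (Complex.I • v) - c.im • v := by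
      rw [smul_smul, ← hr, ← hr, smul_smul, ← sub_smul]
      congr 1
      apply Complex.ext <;> simp
    simp only [frv]
    rw [h2]
    have h3 : E (c • v) w = c.re * E v w + c.im * E (Complex.I • v) w := by
      rw [h1]
      simp only [map_add, map_smul, add_apply, smul_apply, smul_eq_mul]
    rw [h3]
    simp only [map_sub, map_smul, sub_apply, smul_apply, smul_eq_mul]
    apply Complex.ext
    · simp
    · simp
  symm := fun v w => by
    have hsk : ∀ v w, E v w = -E w v := by
      intro v w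
      have h1 := halt (v + w)
      simp only [map_add, add_apply, halt] at h1
      linarith
    have h1 : E (Complex.I • w) v = E (Complex.I • v) w := by
      have h2 := hJ (Complex.I • w) v
      rw [smul_smul, Complex.I_mul_I, neg_one_smul, map_neg, neg_apply] at h2
      rw [← h2, hsk, neg_neg]
    have h3 := hsk w v
    apply Complex.ext
    · rw [frv_re, h1, Complex.conj_re, frv_re]
    · rw [frv_im, h3, Complex.conj_im, frv_im]

/-! ### The third derivative -/

section Third

variable {V : Type} [NormedAddCommGroup V] [NormedSpace ℂ V]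

/-- The third derivative. -/
def d3 (s : V → ℂ) (v a b c : V) : ℂ :=
  fderiv ℂ (fun z => fderiv ℂ (fun y => fderiv ℂ s y c) z b) v a

theorem an1 {s : V → ℂ} {v : V} (hs : AnalyticAt ℂ s v) (c : V) :
    AnalyticAt ℂ (fun y => fderiv ℂ s y c) v := by
  have h1 := hs.fderiv
  exact ((ContinuousLinearMap.apply ℂ ℂ c).analyticAt _).fun_comp h1

theorem symm2 {s : V → ℂ} {v : V} (hs : AnalyticAt ℂ s v) (b c : V) :
    fderiv ℂ (fun y => fderiv ℂ s y c) v b = fderiv ℂ (fun y => fderiv ℂ s y b) v c := by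
  have h0 : ∀ x : V, HasFDerivAt (fun y => fderiv ℂ s y x)
      ((ContinuousLinearMap.apply ℂ ℂ x).comp (fderiv ℂ (fderiv ℂ s) v)) v := fun x =>
    (ContinuousLinearMap.apply ℂ ℂ x).hasFDerivAt.comp v hs.fderiv.differentiableAt.hasFDerivAt
  rw [(h0 c).fderiv, (h0 b).fderiv]
  have h1 : ContDiffAt ℂ ω s v := hs.contDiffAt
  have h2 := h1.isSymmSndFDerivAt (by simp)
  exact h2.eq b c

theorem isCub_d3 {s : V → ℂ} {v : V} (hs : AnalyticAt ℂ s v) :
    (∀ a a' b c, d3 s v (a + a') b c = d3 s v a b c + d3 s v a' b c) ∧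
    (∀ (t : ℂ) a b c, d3 s v (t • a) b c = t * d3 s v a b c) ∧
    (∀ a b c, d3 s v a b c = d3 s v b a c) ∧ (∀ a b c, d3 s v a b c = d3 s v a c b) := by
  refine ⟨fun a a' b c => ?_, fun t a b c => ?_, fun a b c => ?_, fun a b c => ?_⟩
  · rw [d3, map_add]
    rfl
  · rw [d3, map_smul]
    rfl
  · exact symm2 (an1 hs c) a b
  · have h1 : (fun z => fderiv ℂ (fun y => fderiv ℂ s y c) z b) =ᶠ[𝓝 v]
        fun z => fderiv ℂ (fun y => fderiv ℂ s y b) z c := by
      filter_upwards [hs.eventually_analyticAt] with z hz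
      exact symm2 hz b c
    rw [d3, h1.fderiv_eq]
    rfl

theorem line_deriv {g : V → ℂ} {v w : V} (hg : AnalyticAt ℂ g v) :
    deriv (fun t : ℂ => g (v + t • w)) =ᶠ[𝓝 0] fun t => fderiv ℂ g (v + t • w) w := by
  have h1 : Tendsto (fun t : ℂ => v + t • w) (𝓝 0) (𝓝 v) := by
    have h2 : Continuous fun t : ℂ => v + t • w := by fun_prop
    simpa using h2.tendsto 0
  filter_upwards [h1.eventually hg.eventually_analyticAt] with t ht
  have h3 : HasDerivAt (fun t : ℂ => v + t • w) w t := by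
    have h4 := ((hasDerivAt_id t).smul_const w).const_add v
    simpa using h4
  exact (ht.differentiableAt.hasFDerivAt.comp_hasDerivAt t h3).deriv

/-- The diagonal. -/
theorem d3_diag {s : V → ℂ} {v : V} (hs : AnalyticAt ℂ s v) (w : V) :
    d3 s v w w w = iteratedDeriv 3 (fun t : ℂ => s (v + t • w)) 0 := by
  have h5 : ∀ G : ℂ → ℂ, iteratedDeriv 3 G 0 = deriv (deriv (deriv G)) 0 := by
    intro G
    rw [iteratedDeriv_succ', iteratedDeriv_succ', iteratedDeriv_one]
  rw [h5]
  have h1 := line_deriv (w := w) hs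
  have h2 := line_deriv (w := w) (an1 hs w)
  have h3 := line_deriv (w := w) (an1 (an1 hs w) w)
  have h4 := (h1.deriv.trans h2).deriv.trans h3
  rw [h4.self_of_nhds]
  simp [d3]

end Third

theorem isCub_d3' {s : V → ℂ} {v : V} (hs : AnalyticAt ℂ s v) : IsCub (d3 s v) :=
  ⟨(isCub_d3 hs).1, (isCub_d3 hs).2.1, (isCub_d3 hs).2.2.1, (isCub_d3 hs).2.2.2⟩

/-- The norm of a cubic tensor. -/
theorem norm_cub_le {W : V [×3]→L[ℂ] ℂ} {G : V ≃L[ℂ] V} {φ : V → V → V → ℂ}
    (hφ : ∀ x y z, W ![x, y, z] = φ x y z) {κ B : ℝ} (hκ : 0 ≤ κ) (hB : 0 ≤ B)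
    (h : ∀ x y z, κ * ‖φ (G.symm x) (G.symm y) (G.symm z)‖ ≤ B * (‖x‖ * ‖y‖ * ‖z‖)) :
    κ * ‖W.compContinuousLinearMap fun _ => (G.symm : V →L[ℂ] V)‖ ≤ B := by
  rcases hκ.eq_or_lt with hκ0 | hκ0
  · rw [← hκ0, zero_mul]
    exact hB
  rw [mul_comm, ← le_div_iff₀ hκ0]
  refine ContinuousMultilinearMap.opNorm_le_bound (by positivity) fun m => ?_
  rw [ContinuousMultilinearMap.compContinuousLinearMap_apply, Fin.prod_univ_three]
  have h1 : (fun i => (G.symm : V →L[ℂ] V) (m i)) = ![G.symm (m 0), G.symm (m 1), G.symm (m 2)] := by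
    ext i
    fin_cases i <;> rfl
  rw [h1, hφ, div_mul_eq_mul_div, le_div_iff₀ hκ0, mul_comm]
  exact h _ _ _

end Vale.Agent.P281.H969.D
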