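import Mathlib.MeasureTheory.Measure.Lebesgue.EqHaar
import Mathlib.MeasureTheory.Group.FundamentalDomain
import Mathlib.LinearAlgebra.Matrix.BilinearForm
import Mathlib.Analysis.InnerProductSpace.PiL2
import Mathlib.MeasureTheory.Measure.Lebesgue.Complex

/-!
# P281, project T-Δ (helper969): the covolume of a polarized lattice
-/

open Set Filter Metric Complex MeasureTheory
open scoped Topology ENNReal

noncomputable section

namespace Vale.Agent.P281.H969.D

variable {d n : ℕ} {V : Type} [NormedAddCommGroup V] [InnerProductSpace ℂ V]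
  [FiniteDimensional ℂ V]

/-- Linear maps preserving a nondegenerate form. -/
theorem abs_det_eq_one {E : Type*} [AddCommGroup E] [Module ℝ E] [FiniteDimensional ℝ E]
    (B : LinearMap.BilinForm ℝ E) (hB : B.Nondegenerate) (f : E →ₗ[ℝ] E)
    (h : ∀ x y, B (f x) (f y) = B x y) : |LinearMap.det f| = 1 := by
  set b := Module.finBasis ℝ E with hb
  have h1 := LinearMap.BilinForm.toMatrix_comp b b B f f
  have h2 : B.comp f f = B := by
    ext x y
    exact h x y
  rw [h2] at h1
  have h3 := congrArg Matrix.det h1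
  rw [Matrix.det_mul, Matrix.det_mul, Matrix.det_transpose, LinearMap.det_toMatrix] at h3
  have h4 := (LinearMap.BilinForm.nondegenerate_iff_det_ne_zero b).1 hB
  have h5 : LinearMap.det f ^ 2 = 1 := by
    refine mul_left_cancel₀ h4 ?_
    rw [mul_one]
    conv_rhs => rw [h3]
    ring
  have h6 : |LinearMap.det f| ^ 2 = 1 := by rw [sq_abs, h5]
  exact (pow_eq_one_iff_of_nonneg (abs_nonneg _) two_ne_zero).1 h6

/-- The coordinates. -/
def co (b : OrthonormalBasis (Fin d) ℂ V) : V ≃L[ℂ] (Fin d → ℂ) :=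
  b.repr.toContinuousLinearEquiv.trans (EuclideanSpace.equiv (Fin d) ℂ)

theorem co_apply (b : OrthonormalBasis (Fin d) ℂ V) (v : V) (i : Fin d) :
    co b v i = inner ℂ (b i) v := by
  simp [co, OrthonormalBasis.repr_apply_apply]

theorem co_le (b : OrthonormalBasis (Fin d) ℂ V) (v : V) : ‖co b v‖ ≤ ‖v‖ := by
  refine (pi_norm_le_iff_of_nonneg (norm_nonneg _)).2 fun i => ?_
  rw [co_apply]
  have h1 := norm_inner_le_norm (𝕜 := ℂ) (b i) v
  rwa [b.orthonormal.1 i, one_mul] at h1

theorem le_co (b : OrthonormalBasis (Fin d) ℂ V) (v : V) : ‖v‖ ≤ d * ‖co b v‖ := by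
  have h1 : v = ∑ i, co b v i • b i := by
    conv_lhs => rw [← b.sum_repr' v]
    simp only [co_apply]
  calc ‖v‖ = ‖∑ i, co b v i • b i‖ := by rw [← h1]
    _ ≤ ∑ i : Fin d, ‖co b v‖ := by
        refine (norm_sum_le _ _).trans (Finset.sum_le_sum fun i _ => ?_)
        rw [norm_smul, b.orthonormal.1 i, mul_one]
        exact norm_le_pi_norm (co b v) i
    _ = d * ‖co b v‖ := by simp

/-- The image of `ℤ^n`. -/
def latt (P : (Fin n → ℝ) ≃L[ℝ] V) : AddSubgroup V :=
  AddMonoidHom.range
    ({ toFun := fun m => P fun i => (m i : ℝ)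
       map_zero' := by
        have : (fun i => ((0 : Fin n → ℤ) i : ℝ)) = 0 := by
          ext
          simp
        rw [this, map_zero]
       map_add' := fun m m' => by
        rw [← map_add]
        congr 1
        ext
        simp } : (Fin n → ℤ) →+ V)

theorem mem_latt (P : (Fin n → ℝ) ≃L[ℝ] V) (v : V) :
    v ∈ latt P ↔ ∃ m : Fin n → ℤ, (P fun i => (m i : ℝ)) = v := Iff.rfl

/-- its image in the coordinates -/
def lattc (b : OrthonormalBasis (Fin d) ℂ V) (P : (Fin n → ℝ) ≃L[ℝ] V) :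
    AddSubgroup (Fin d → ℂ) :=
  (latt P).map (co b : V →ₗ[ℂ] (Fin d → ℂ)).toAddMonoidHom

theorem mem_lattc (b : OrthonormalBasis (Fin d) ℂ V) (P : (Fin n → ℝ) ≃L[ℝ] V)
    (v : Fin d → ℂ) : v ∈ lattc b P ↔ ∃ m : Fin n → ℤ, co b (P fun i => (m i : ℝ)) = v := by
  constructor
  · rintro ⟨u, ⟨m, rfl⟩, rfl⟩
    exact ⟨m, rfl⟩
  · rintro ⟨m, rfl⟩
    exact ⟨P fun i => (m i : ℝ), ⟨m, rfl⟩, rfl⟩

instance (b : OrthonormalBasis (Fin d) ℂ V) (P : (Fin n → ℝ) ≃L[ℝ] V) :
    Countable (lattc b P) := by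
  have h1 : (lattc b P : Set (Fin d → ℂ)) =
      range fun m : Fin n → ℤ => co b (P fun i => (m i : ℝ)) := by
    ext v
    exact mem_lattc b P v
  have h2 : (lattc b P : Set (Fin d → ℂ)).Countable := h1 ▸ countable_range _
  exact h2.to_subtype

/-- the coordinates, as a real map -/
def cor (b : OrthonormalBasis (Fin d) ℂ V) : V ≃L[ℝ] (Fin d → ℂ) :=
  { (co b).toLinearEquiv.restrictScalars ℝ with
    continuous_toFun := (co b).continuous
    continuous_invFun := (co b).symm.continuous }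

/-- `P` in coordinates -/
def pc (b : OrthonormalBasis (Fin d) ℂ V) (P : (Fin n → ℝ) ≃L[ℝ] V) :
    (Fin n → ℝ) ≃L[ℝ] (Fin d → ℂ) :=
  P.trans (cor b)

theorem pc_apply (b : OrthonormalBasis (Fin d) ℂ V) (P : (Fin n → ℝ) ≃L[ℝ] V) (x : Fin n → ℝ) :
    pc b P x = co b (P x) := rfl

/-- The volume of a fundamental domain. -/
theorem volume_le_fund (b : OrthonormalBasis (Fin d) ℂ V) (P : (Fin n → ℝ) ≃L[ℝ] V)
    {A : Set (Fin d → ℂ)} (hA : MeasurableSet A)
    (hinj : ∀ z ∈ A, ∀ z' ∈ A, z - z' ∈ lattc b P → z = z') :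
    volume A ≤ volume ((pc b P).symm ⁻¹' Icc 0 1) := by
  set D : Set (Fin d → ℂ) := (pc b P).symm ⁻¹' {x : Fin n → ℝ | ∀ i, 0 ≤ x i ∧ x i < 1} with hD
  have hDm : MeasurableSet D := by
    refine (pc b P).symm.continuous.measurable ?_
    have h1 : {x : Fin n → ℝ | ∀ i, 0 ≤ x i ∧ x i < 1} = ⋂ i, {x | 0 ≤ x i ∧ x i < 1} := by
      ext x
      simp [mem_iInter]
    rw [h1]
    refine MeasurableSet.iInter fun i => ?_
    exact (measurableSet_Ico (a := (0 : ℝ)) (b := 1)).preimage (measurable_pi_apply i)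
  have hfund : IsAddFundamentalDomain (lattc b P) D volume := by
    refine IsAddFundamentalDomain.mk' hDm.nullMeasurableSet fun z => ?_
    set x := (pc b P).symm z with hx
    have key : ∀ m : Fin n → ℤ, (pc b P).symm (co b (P fun i => (m i : ℝ)) + z) =
        (fun i => (m i : ℝ)) + x := by
      intro m
      rw [map_add, ← pc_apply, ContinuousLinearEquiv.symm_apply_apply]
    refine ⟨⟨co b (P fun i => ((-⌊x i⌋ : ℤ) : ℝ)), (mem_lattc b P _).2 ⟨_, rfl⟩⟩, ?_, ?_⟩
    · show (pc b P).symm (co b (P fun i => ((-⌊x i⌋ : ℤ) : ℝ)) + z) ∈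
        {x : Fin n → ℝ | ∀ i, 0 ≤ x i ∧ x i < 1}
      rw [key]
      intro i
      simp only [Pi.add_apply, Int.cast_neg]
      constructor
      · linarith [Int.floor_le (x i)]
      · linarith [Int.lt_floor_add_one (x i)]
    · rintro ⟨g, hg⟩ hgz
      obtain ⟨m, rfl⟩ := (mem_lattc b P g).1 hg
      have h1 : (pc b P).symm (co b (P fun i => (m i : ℝ)) + z) ∈
          {x : Fin n → ℝ | ∀ i, 0 ≤ x i ∧ x i < 1} := hgz
      rw [key] at h1
      have h2 : m = fun i => -⌊x i⌋ := by
        ext i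
        have h3 := h1 i
        simp only [Pi.add_apply] at h3
        have h4 : ⌊x i⌋ = -m i := by
          rw [Int.floor_eq_iff]
          push_cast
          constructor <;> linarith
        rw [h4, neg_neg]
      subst h2
      rfl
  have h1 : volume A ≤ volume D := by
    by_contra hcon
    push Not at hcon
    obtain ⟨x, hx, y, hy, g, hg, hgx⟩ :=
      hfund.exists_ne_zero_vadd_eq hA.nullMeasurableSet hcon
    apply hg
    have h2 : (g : Fin d → ℂ) + x = y := hgx
    have h3 := hinj y hy x hx (by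
      rw [← h2, add_sub_cancel_right]
      exact g.2)
    rw [h3] at h2
    ext1
    simpa using h2
  refine h1.trans (measure_mono (preimage_mono ?_))
  intro x hx
  exact ⟨fun i => (hx i).1, fun i => (hx i).2.le⟩

/-- **The covolume of polarized lattices is bounded.** -/
theorem covol (b : OrthonormalBasis (Fin d) ℂ V) (Q : (Fin n → ℝ) → (Fin n → ℝ) → ℝ) :
    ∃ c : ℝ, 0 ≤ c ∧ ∀ P : (Fin n → ℝ) ≃L[ℝ] V, (∀ x x', (inner ℂ (P x) (P x')).im = Q x x') →
      ∀ A : Set (Fin d → ℂ), MeasurableSet A →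
        (∀ z ∈ A, ∀ z' ∈ A, z - z' ∈ lattc b P → z = z') → volume A ≤ ENNReal.ofReal c := by
  by_cases hex : ∃ P₁ : (Fin n → ℝ) ≃L[ℝ] V, ∀ x x', (inner ℂ (P₁ x) (P₁ x')).im = Q x x'
  · obtain ⟨P₁, hP₁⟩ := hex
    refine ⟨(volume ((pc b P₁).symm ⁻¹' Icc 0 1)).toReal, ENNReal.toReal_nonneg,
      fun P hP A hA hinj => ?_⟩
    have hfin : volume ((pc b P₁).symm ⁻¹' Icc 0 1) ≠ ⊤ := by
      have h1 : (pc b P₁).symm ⁻¹' Icc 0 1 = pc b P₁ '' Icc 0 1 := by
        rw [← ContinuousLinearEquiv.image_symm_eq_preimage]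
        rfl
      rw [h1]
      exact (isCompact_Icc.image (pc b P₁).continuous).measure_lt_top.ne
    rw [ENNReal.ofReal_toReal hfin]
    -- the symplectic map
    let R : (Fin d → ℂ) ≃L[ℝ] (Fin d → ℂ) := (pc b P₁).symm.trans (pc b P)
    have hR : ∀ x, R (co b (P₁ x)) = co b (P x) := by
      intro x
      show pc b P ((pc b P₁).symm (pc b P₁ x)) = _
      rw [ContinuousLinearEquiv.symm_apply_apply]
      rfl
    let B : LinearMap.BilinForm ℝ (Fin d → ℂ) := LinearMap.mk₂ ℝ
      (fun v w => (inner ℂ ((co b).symm v) ((co b).symm w)).im)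
      (fun v v' w => by
        rw [map_add, inner_add_left, Complex.add_im])
      (fun r v w => by
        have h1 : (co b).symm (r • v) = (r : ℂ) • (co b).symm v := by
          rw [← map_smul]
          rfl
        rw [h1, inner_smul_left, Complex.conj_ofReal, Complex.im_ofReal_mul]
        rfl)
      (fun v w w' => by
        rw [map_add, inner_add_right, Complex.add_im])
      (fun r v w => by
        have h1 : (co b).symm (r • w) = (r : ℂ) • (co b).symm w := by
          rw [← map_smul]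
          rfl
        rw [h1, inner_smul_right, Complex.im_ofReal_mul]
        rfl)
    have hBapp : ∀ v w, B v w = (inner ℂ ((co b).symm v) ((co b).symm w)).im := fun v w => rfl
    have hsep : ∀ v : Fin d → ℂ, B v (Complex.I • v) = ‖(co b).symm v‖ ^ 2 := by
      intro v
      rw [hBapp, map_smul, inner_smul_right, inner_self_eq_norm_sq_to_K, Complex.I_mul_im]
      norm_cast
    have hsep' : ∀ v : Fin d → ℂ, B (Complex.I • v) v = -‖(co b).symm v‖ ^ 2 := by
      intro v
      rw [hBapp, map_smul, inner_smul_left, inner_self_eq_norm_sq_to_K, Complex.conj_I, neg_mul,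
        Complex.neg_im, Complex.I_mul_im]
      norm_cast
    have hz : ∀ v : Fin d → ℂ, ‖(co b).symm v‖ ^ 2 = 0 → v = 0 := by
      intro v hv
      have h1 := norm_eq_zero.1 (pow_eq_zero_iff two_ne_zero |>.1 hv)
      simpa using h1
    have hB : B.Nondegenerate := by
      constructor
      · intro v hv
        exact hz v (by rw [← hsep, hv])
      · intro v hv
        exact hz v (by rw [← neg_eq_zero, ← hsep', hv])
    have hRB : ∀ v w, B (R v) (R w) = B v w := by
      intro v w
      obtain ⟨x, rfl⟩ := (pc b P₁).surjective v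
      obtain ⟨y, rfl⟩ := (pc b P₁).surjective w
      rw [pc_apply, pc_apply, hR, hR, hBapp, hBapp]
      simp only [ContinuousLinearEquiv.symm_apply_apply]
      rw [hP, hP₁]
    have hdet := abs_det_eq_one B hB (R : (Fin d → ℂ) →ₗ[ℝ] (Fin d → ℂ)) hRB
    have hdet0 : LinearMap.det (R : (Fin d → ℂ) →ₗ[ℝ] (Fin d → ℂ)) ≠ 0 := by
      intro h0
      rw [h0] at hdet
      simp at hdet
    have h1 : volume (R ⁻¹' A) = volume A := by
      have h2 := Measure.addHaar_preimage_linearMap (volume : Measure (Fin d → ℂ)) hdet0 A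
      rw [abs_inv, hdet, inv_one, ENNReal.ofReal_one, one_mul] at h2
      exact h2
    rw [← h1]
    refine volume_le_fund b P₁ (R.continuous.measurable hA) fun z hz z' hz' hzz => ?_
    have h3 : R z - R z' ∈ lattc b P := by
      obtain ⟨m, hm⟩ := (mem_lattc b P₁ _).1 hzz
      refine (mem_lattc b P _).2 ⟨m, ?_⟩
      rw [← map_sub, ← hm, hR]
    exact R.injective (hinj _ hz _ hz' h3)
  · exact ⟨0, le_rfl, fun P hP => (hex ⟨P, hP⟩).elim⟩

end Vale.Agent.P281.H969.D
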