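import Vale.Agent.P281.H969.D.Alg
import Vale.Agent.P281.H969.D.Covol

/-!
# P281, project T-Δ (helper969): theta data of a polarized lattice
-/

open Set Filter Metric Complex Real MeasureTheory
open scoped Topology ENNReal ComplexConjugate

noncomputable section

namespace Vale.Agent.P281.H969.D

section

variable {d : ℕ}

/-- The form is nonnegative. -/
theorem IsQuasi.nonneg {H : Matrix (Fin d) (Fin d) ℂ} (hH : H.IsHermitian)
    {lam : (Fin d → ℂ) → ℝ} (h : IsQuasi H lam) (hle : ∀ z, lam z ≤ 1)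
    {z₀ : Fin d → ℂ} (hz₀ : lam z₀ = 1) (w : Fin d → ℂ) : 0 ≤ (hf H w w).re := by
  set μ : ℂ → ℝ := fun t => √(lam (z₀ + t • w) * Real.exp (‖t‖ ^ 2 * (hf H w w).re)) with hμ
  have hloc : ∀ R, LocHol μ (closedBall 0 R) := by
    intro R t _
    obtain ⟨θ, h1, h2⟩ := h.shift hH z₀ (z₀ + t • w)
    have h3 : AnalyticAt ℂ (fun t : ℂ => z₀ + t • w) t := by fun_prop
    refine ⟨fun t => θ (z₀ + t • w), AnalyticAt.fun_comp (g := θ) h1 h3, ?_⟩
    filter_upwards [h3.continuousAt.eventually h2] with s hs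
    show √(lam (z₀ + s • w) * Real.exp (‖s‖ ^ 2 * (hf H w w).re)) = _
    rw [hs, add_sub_cancel_left, hf_smul_smul, Complex.re_ofReal_mul, mul_assoc, ← Real.exp_add,
      neg_add_cancel, Real.exp_zero, mul_one, Real.sqrt_sq (norm_nonneg _)]
  have hμ0 : μ 0 = 1 := by simp [hμ, hz₀]
  obtain ⟨f, hf1, hf2⟩ := (hloc 2).exists_hol two_pos (by rw [hμ0]; exact one_ne_zero)
  by_contra hcon
  push Not at hcon
  have h1 : ∀ t ∈ sphere (0 : ℂ) 1, ‖f t‖ ≤ √(Real.exp ((hf H w w).re)) := by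
    intro t ht
    rw [mem_sphere_zero_iff_norm] at ht
    rw [← hf2 t (by rw [mem_ball_zero_iff, ht]; norm_num)]
    show √(lam (z₀ + t • w) * Real.exp (‖t‖ ^ 2 * (hf H w w).re)) ≤ _
    rw [ht, one_pow, one_mul]
    exact Real.sqrt_le_sqrt (mul_le_of_le_one_left (Real.exp_pos _).le (hle _))
  have h2 : DiffContOnCl ℂ f (ball 0 1) := by
    have h3 : DifferentiableOn ℂ f (closure (ball (0 : ℂ) 1)) := by
      rw [closure_ball _ one_ne_zero]
      intro t ht
      exact (hf1 t (closedBall_subset_ball one_lt_two ht)).differentiableAt.differentiableWithinAt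
    exact h3.diffContOnCl
  have h3 := Complex.norm_le_of_forall_mem_frontier_norm_le (isBounded_ball (x := (0 : ℂ)) (r := 1))
    h2 (C := √(Real.exp ((hf H w w).re))) (fun t ht => h1 t (by
      rwa [frontier_ball _ one_ne_zero] at ht)) (z := 0) (subset_closure (mem_ball_self one_pos))
  rw [← hf2 0 (mem_ball_self two_pos), hμ0] at h3
  have h4 : Real.exp ((hf H w w).re) < 1 := by
    rw [Real.exp_lt_one_iff]
    exact hcon
  have h5 : √(Real.exp ((hf H w w).re)) < 1 := by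
    rw [Real.sqrt_lt' one_pos]
    simpa using h4
  linarith

end

variable {d n : ℕ} {V : Type} [NormedAddCommGroup V] [InnerProductSpace ℂ V]
  [FiniteDimensional ℂ V]

/-- A Hermitian form, linear in the first variable. -/
structure IsHerm (S : V → V → ℂ) : Prop where
  add : ∀ v v' w, S (v + v') w = S v w + S v' w
  smul : ∀ (c : ℂ) v w, S (c • v) w = c * S v w
  symm : ∀ v w, S w v = conj (S v w)

/-- The quasi-periodic metric: `lam = |θ|² exp (-S(w, w))` locally, periodic for the lattice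
`P(ℤ^n)`. -/
structure IsThetaD (P : (Fin n → ℝ) ≃L[ℝ] V) (S : V → V → ℂ) (lam : V → ℝ) : Prop where
  herm : IsHerm S
  cont : Continuous lam
  nonneg : ∀ v, 0 ≤ lam v
  ne : ∃ v, lam v ≠ 0
  per : ∀ v (m : Fin n → ℤ), lam (v + P fun i => (m i : ℝ)) = lam v
  loc : ∀ z, ∃ θ : V → ℂ, AnalyticAt ℂ θ z ∧
    ∀ᶠ w in 𝓝 z, lam w = ‖θ w‖ ^ 2 * Real.exp (-(S w w).re)

/-- the matrix -/
def mat (b : OrthonormalBasis (Fin d) ℂ V) (S : V → V → ℂ) : Matrix (Fin d) (Fin d) ℂ :=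
  Matrix.of fun i j => S (b i) (b j)

omit [FiniteDimensional ℂ V] in
theorem IsHerm.sum_left {S : V → V → ℂ} (hS : IsHerm S) (x : Fin d → ℂ) (u : Fin d → V) (w : V) :
    S (∑ i, x i • u i) w = ∑ i, x i * S (u i) w := by
  let l : V →ₗ[ℂ] ℂ :=
    { toFun := fun v => S v w
      map_add' := fun v v' => hS.add v v' w
      map_smul' := fun c v => hS.smul c v w }
  have h1 : l (∑ i, x i • u i) = ∑ i, x i * l (u i) := by
    rw [map_sum]
    refine Finset.sum_congr rfl fun i _ => ?_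
    rw [map_smul, smul_eq_mul]
  exact h1

omit [FiniteDimensional ℂ V] in
theorem IsHerm.isHermitian {S : V → V → ℂ} (hS : IsHerm S) (b : OrthonormalBasis (Fin d) ℂ V) :
    (mat b S).IsHermitian := by
  ext i j
  rw [Matrix.conjTranspose_apply]
  exact (hS.symm (b j) (b i)).symm

theorem co_symm_eq (b : OrthonormalBasis (Fin d) ℂ V) (x : Fin d → ℂ) :
    (co b).symm x = ∑ i, x i • b i := by
  have h1 := b.sum_repr' ((co b).symm x)
  rw [← h1]
  refine Finset.sum_congr rfl fun i _ => ?_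
  rw [← co_apply, ContinuousLinearEquiv.apply_symm_apply]

theorem IsHerm.hf_eq {S : V → V → ℂ} (hS : IsHerm S) (b : OrthonormalBasis (Fin d) ℂ V)
    (x y : Fin d → ℂ) : hf (mat b S) x y = S ((co b).symm x) ((co b).symm y) := by
  rw [co_symm_eq b x, hS.sum_left]
  simp only [hf]
  refine Finset.sum_congr rfl fun i _ => ?_
  have h1 : S (b i) ((co b).symm y) = ∑ j, conj (y j) * S (b i) (b j) := by
    rw [hS.symm, co_symm_eq b y, hS.sum_left, map_sum]
    refine Finset.sum_congr rfl fun j _ => ?_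
    rw [map_mul, ← hS.symm]
  rw [h1, Finset.mul_sum]
  refine Finset.sum_congr rfl fun j _ => ?_
  simp only [mat, Matrix.of_apply]
  ring

/-- In coordinates. -/
theorem IsThetaD.isQuasi {P : (Fin n → ℝ) ≃L[ℝ] V} {S : V → V → ℂ} {lam : V → ℝ}
    (h : IsThetaD P S lam) (b : OrthonormalBasis (Fin d) ℂ V) (μ : ℝ) (hμ : 0 < μ) :
    IsQuasi (mat b S) fun x => lam ((co b).symm x) / μ := by
  intro x
  obtain ⟨θ, h1, h2⟩ := h.loc ((co b).symm x)
  have h3 : AnalyticAt ℂ (fun y => (co b).symm y) x := (co b).symm.analyticAt x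
  refine ⟨fun y => θ ((co b).symm y) * ((√μ : ℝ) : ℂ)⁻¹,
    (AnalyticAt.fun_comp (g := θ) (f := fun y => (co b).symm y) h1 h3).mul analyticAt_const, ?_⟩
  filter_upwards [h3.continuousAt.eventually h2] with y hy
  rw [hy, h.herm.hf_eq, norm_mul, mul_pow, norm_inv, Complex.norm_real,
    Real.norm_of_nonneg (Real.sqrt_nonneg _), inv_pow, Real.sq_sqrt hμ.le]
  ring

/-- The maximum. -/
theorem IsThetaD.exists_max {P : (Fin n → ℝ) ≃L[ℝ] V} {S : V → V → ℂ} {lam : V → ℝ}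
    (h : IsThetaD P S lam) : ∃ v₀, 0 < lam v₀ ∧ ∀ v, lam v ≤ lam v₀ := by
  obtain ⟨x₀, -, hx₀⟩ := (isCompact_Icc (a := (0 : Fin n → ℝ)) (b := 1)).exists_isMaxOn
    ⟨0, by simp⟩ ((h.cont.comp P.continuous).continuousOn)
  have hmax : ∀ v, lam v ≤ lam (P x₀) := by
    intro v
    set x := P.symm v with hx
    have h1 : (fun i => Int.fract (x i)) ∈ Icc (0 : Fin n → ℝ) 1 :=
      ⟨fun i => Int.fract_nonneg _, fun i => (Int.fract_lt_one _).le⟩
    have h2 := hx₀ h1
    have h3 : v = P (fun i => Int.fract (x i)) + P (fun i => ((⌊x i⌋ : ℤ) : ℝ)) := by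
      rw [← map_add]
      have h4 : ((fun i => Int.fract (x i)) + fun i => ((⌊x i⌋ : ℤ) : ℝ)) = x := by
        ext i
        exact Int.fract_add_floor _
      rw [h4, hx, ContinuousLinearEquiv.apply_symm_apply]
    rw [h3, h.per]
    exact h2
  refine ⟨P x₀, ?_, hmax⟩
  obtain ⟨v, hv⟩ := h.ne
  exact lt_of_lt_of_le (lt_of_le_of_ne (h.nonneg v) (Ne.symm hv)) (hmax v)

/-- The form is nonnegative. -/
theorem IsThetaD.form_nonneg {P : (Fin n → ℝ) ≃L[ℝ] V} {S : V → V → ℂ} {lam : V → ℝ}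
    (h : IsThetaD P S lam) (w : V) : 0 ≤ (S w w).re := by
  obtain ⟨v₀, h1, h2⟩ := h.exists_max
  let b := stdOrthonormalBasis ℂ V
  have h3 := (h.isQuasi b _ h1).nonneg (h.herm.isHermitian b) (z₀ := co b v₀) (fun z =>
    (div_le_one h1).2 (h2 _)) (by
      simp only [ContinuousLinearEquiv.symm_apply_apply]
      exact div_self h1.ne') (co b w)
  rwa [h.herm.hf_eq, ContinuousLinearEquiv.symm_apply_apply] at h3

/-- The constant. -/
def bd (d : ℕ) (C c : ℝ) : ℝ :=
  96 * (3 / 2 * (C * (2 * c) ^ 2 * (64 * c ^ 2) ^ d + 1 + C) + 3) * (d + 1) ^ (4 * d ^ 2 + 4 * d + 3)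

theorem bd_nonneg (d : ℕ) {C c : ℝ} (hC : 0 ≤ C) (hc : 0 ≤ c) : 0 ≤ bd d C c := by
  unfold bd
  positivity

/-- **D4**, in the letters of `V`. -/
theorem IsThetaD.third_le {P : (Fin n → ℝ) ≃L[ℝ] V} {S : V → V → ℂ} {lam : V → ℝ}
    (h : IsThetaD P S lam) (b : OrthonormalBasis (Fin d) ℂ V) {C c : ℝ} (hc0 : 0 ≤ c)
    (hC0 : 0 ≤ C) (hC : ∀ w, (S w w).re ≤ C * ‖w‖ ^ 2)
    (hc : ∀ A : Set (Fin d → ℂ), MeasurableSet A →
        (∀ z ∈ A, ∀ z' ∈ A, z - z' ∈ lattc b P → z = z') → volume A ≤ ENNReal.ofReal c)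
    {v₀ : V} {δ : ℝ} (hδ : 0 < δ) (hδ1 : δ ≤ 1) (hne : ∀ v ∈ ball v₀ δ, lam v ≠ 0)
    (hinj : ∀ v ∈ ball v₀ δ, ∀ m : Fin n → ℤ, (v + P fun i => (m i : ℝ)) ∈ ball v₀ δ → m = 0)
    {s : V → ℂ} (hs : AnalyticAt ℂ s v₀)
    (hlam : ∀ᶠ z in 𝓝 v₀, lam z = Real.exp (2 * (s z).re - (S z z).re)) {w : V} (hw : ‖w‖ ≤ 1) :
    ‖iteratedDeriv 3 (fun t : ℂ => s (v₀ + t • w)) 0‖ * δ ^ (4 * d ^ 2 + 4 * d + 3) ≤
      bd d (C * d ^ 2) c := by
  obtain ⟨u₀, hu0, humax⟩ := h.exists_max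
  set ρ := δ / (d + 1) with hρ
  have hd1 : (0 : ℝ) < d + 1 := by positivity
  have hρ0 : 0 < ρ := by positivity
  have hρ1 : ρ ≤ 1 := by
    rw [hρ, div_le_one hd1]
    have : (0 : ℝ) ≤ d := Nat.cast_nonneg _
    linarith
  have hρδ : d * ρ < δ := by
    rw [hρ, mul_div_assoc', div_lt_iff₀ hd1]
    nlinarith
  -- balls
  have hball : ∀ x ∈ ball (co b v₀) ρ, (co b).symm x ∈ ball v₀ δ := by
    intro x hx
    rw [mem_ball_iff_norm] at hx ⊢
    have h1 := le_co b ((co b).symm x - v₀)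
    rw [map_sub, ContinuousLinearEquiv.apply_symm_apply] at h1
    have h2 : (d : ℝ) * ‖x - co b v₀‖ ≤ d * ρ := mul_le_mul_of_nonneg_left hx.le (Nat.cast_nonneg _)
    linarith
  -- short vectors
  have hshort : ∀ γ ∈ lattc b P, γ ≠ 0 → 2 * ρ ≤ ‖γ‖ := by
    intro γ hγ hγ0
    obtain ⟨m, rfl⟩ := (mem_lattc b P γ).1 hγ
    set g := P fun i => (m i : ℝ) with hg
    by_contra hcon
    push Not at hcon
    have h1 := le_co b g
    have h2 : ‖g‖ < 2 * δ := by
      have h3 : (d : ℝ) * ‖co b g‖ ≤ d * (2 * ρ) :=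
        mul_le_mul_of_nonneg_left hcon.le (Nat.cast_nonneg _)
      linarith
    have h4 := hinj (v₀ - (1 / 2 : ℝ) • g) (by
      rw [mem_ball_iff_norm, sub_sub_cancel_left, norm_neg, norm_smul,
        Real.norm_of_nonneg (by norm_num)]
      linarith) m (by
      rw [mem_ball_iff_norm]
      have h5 : v₀ - (1 / 2 : ℝ) • g + g - v₀ = (1 / 2 : ℝ) • g := by module
      rw [h5, norm_smul, Real.norm_of_nonneg (by norm_num)]
      linarith)
    apply hγ0
    rw [hg, h4]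
    have h6 : (fun i => ((0 : Fin n → ℤ) i : ℝ)) = 0 := by
      ext
      simp
    rw [h6, map_zero, map_zero]
  have hherm := h.herm.isHermitian b
  have hq := h.isQuasi b _ hu0
  have hH : ∀ x : Fin d → ℂ, 0 ≤ (hf (mat b S) x x).re := by
    intro x
    rw [h.herm.hf_eq]
    exact h.form_nonneg _
  have hHC : ∀ x : Fin d → ℂ, (hf (mat b S) x x).re ≤ C * d ^ 2 * ‖x‖ ^ 2 := by
    intro x
    rw [h.herm.hf_eq]
    refine (hC _).trans ?_
    have h1 := le_co b ((co b).symm x)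
    rw [ContinuousLinearEquiv.apply_symm_apply] at h1
    have h2 : ‖(co b).symm x‖ ^ 2 ≤ (d * ‖x‖) ^ 2 := pow_le_pow_left₀ (norm_nonneg _) h1 2
    nlinarith
  have hs' : AnalyticAt ℂ (fun x => s ((co b).symm x) - ((Real.log (lam u₀) / 2 : ℝ) : ℂ))
      (co b v₀) := by
    have h3 : AnalyticAt ℂ (fun y => (co b).symm y) (co b v₀) := (co b).symm.analyticAt _
    refine AnalyticAt.sub (AnalyticAt.fun_comp (g := s) (f := fun y => (co b).symm y) ?_ h3)
      analyticAt_const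
    rwa [ContinuousLinearEquiv.symm_apply_apply]
  have hmain := hq.third_le hherm (by
      have h1 : Continuous fun x => lam ((co b).symm x) / lam u₀ :=
        (h.cont.comp (co b).symm.continuous).div_const _
      exact h1.measurable) (fun z => (div_le_one hu0).2 (humax _))
    (fun z => div_nonneg (h.nonneg _) hu0.le) (z₀ := co b u₀) (by
      rw [ContinuousLinearEquiv.symm_apply_apply]
      exact div_self hu0.ne') (C := C * d ^ 2) (by positivity) hH hHC (lattc b P) (by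
      intro z γ hγ
      obtain ⟨m, rfl⟩ := (mem_lattc b P γ).1 hγ
      rw [map_add, ContinuousLinearEquiv.symm_apply_apply, h.per]) hρ0 hρ1 hshort hc
    (z₁ := co b v₀) (fun z hz => div_ne_zero (hne _ (hball z hz)) hu0.ne') hs' (by
      have h1 : Tendsto (fun y => (co b).symm y) (𝓝 (co b v₀)) (𝓝 v₀) := by
        have h2 := (co b).symm.continuous.tendsto (co b v₀)
        rwa [ContinuousLinearEquiv.symm_apply_apply] at h2
      filter_upwards [h1.eventually hlam] with z hz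
      rw [hz, h.herm.hf_eq, Complex.sub_re, Complex.ofReal_re]
      have h3 : 2 * ((s ((co b).symm z)).re - Real.log (lam u₀) / 2) -
          (S ((co b).symm z) ((co b).symm z)).re =
          (2 * (s ((co b).symm z)).re - (S ((co b).symm z) ((co b).symm z)).re) -
            Real.log (lam u₀) := by ring
      rw [h3, Real.exp_sub _ (Real.log (lam u₀)), Real.exp_log hu0]) (w := co b w) ((co_le b w).trans hw)
  have h1 : iteratedDeriv 3 (fun t : ℂ => s ((co b).symm (co b v₀ + t • co b w)) -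
      ((Real.log (lam u₀) / 2 : ℝ) : ℂ)) 0 = iteratedDeriv 3 (fun t : ℂ => s (v₀ + t • w)) 0 := by
    have h2 : (fun t : ℂ => s ((co b).symm (co b v₀ + t • co b w)) -
        ((Real.log (lam u₀) / 2 : ℝ) : ℂ)) = fun t : ℂ => s (v₀ + t • w) -
        ((Real.log (lam u₀) / 2 : ℝ) : ℂ) := by
      ext t
      rw [map_add, map_smul, ContinuousLinearEquiv.symm_apply_apply,
        ContinuousLinearEquiv.symm_apply_apply]
    rw [h2]
    have h5 : deriv (fun t : ℂ => s (v₀ + t • w) - ((Real.log (lam u₀) / 2 : ℝ) : ℂ)) =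
        deriv fun t : ℂ => s (v₀ + t • w) := funext fun t => deriv_sub_const _
    rw [iteratedDeriv_succ' (f := fun t : ℂ => s (v₀ + t • w) - _),
      iteratedDeriv_succ' (f := fun t : ℂ => s (v₀ + t • w)), h5]
  rw [h1] at hmain
  have h2 := hmain.trans (num_le (by positivity) hc0 hρ0 hρ1 d)
  have h3 : δ ^ (4 * d ^ 2 + 4 * d + 3) =
      ρ ^ (4 * d ^ 2 + 4 * d + 3) * ((d : ℝ) + 1) ^ (4 * d ^ 2 + 4 * d + 3) := by
    rw [← mul_pow, hρ, div_mul_cancel₀ _ hd1.ne']
  rw [le_div_iff₀ (by positivity)] at h2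
  rw [h3, bd, ← mul_assoc]
  exact mul_le_mul_of_nonneg_right h2 (by positivity)

end Vale.Agent.P281.H969.D
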