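import Vale.Agent.P281.H969.D.Link
import Vale.Agent.P281.H383.TD.D2b
import Vale.Agent.P281.H125.D.Phi

/-!
# P281, project T-Δ (helper969): the data `FibD` on the fibres of a family
-/

open Set Filter Metric Complex MeasureTheory
open Vale.Agent.P281.H125.D
open H383.TD (DivOne)
open scoped Topology ENNReal ComplexConjugate ContDiff

noncomputable section

namespace Vale.Agent.P281.H969.D

variable {d n : ℕ} {V : Type} [NormedAddCommGroup V] [InnerProductSpace ℂ V]
  [FiniteDimensional ℂ V]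
variable {P : Type} [NormedAddCommGroup P] [NormedSpace ℂ P] [FiniteDimensional ℂ P]
variable {π : P → ((Fin n → ℝ) ≃L[ℝ] V)} {T : Set P} {Z : Set (P × V)}
    {Le : P × V → (P × V → ℂ) → Prop}

/-- The local equations on the fibre. -/
def LeF (Le : P × V → (P × V → ℂ) → Prop) (y : P) (z : V) (h : V → ℂ) : Prop :=
  ∃ H, Le (y, z) H ∧ h = fun v => H (y, v)

omit [FiniteDimensional ℂ V] [FiniteDimensional ℂ P] in
theorem analyticAt_slice {F : Type*} [NormedAddCommGroup F] [NormedSpace ℂ F] {H : P × V → F}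
    {y : P} {z : V} (hH : AnalyticAt ℂ H (y, z)) : AnalyticAt ℂ (fun v => H (y, v)) z :=
  AnalyticAt.fun_comp (f := fun z' : V => (y, z')) hH (analyticAt_const.prod analyticAt_id)

omit [FiniteDimensional ℂ P] in
theorem divOne_of (hD : DivDatum π T Z Le) {y : P} (hy : y ∈ T) {z₀ : V} (hz₀ : (y, z₀) ∉ Z) :
    DivOne (π y) {z | (y, z) ∈ Z} (LeF Le y) where
  ex := fun z => by
    obtain ⟨H, hH⟩ := hD.ex (y, z) hy
    exact ⟨_, H, hH, rfl⟩
  an := by
    rintro z _ ⟨H, hH, rfl⟩
    exact analyticAt_slice (hD.an _ _ hH)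
  zero := by
    rintro z _ ⟨H, hH, rfl⟩
    exact (prod_tendsto y z).eventually (hD.zero _ _ hH)
  near := by
    rintro z _ ⟨H, hH, rfl⟩
    filter_upwards [(prod_tendsto y z).eventually (hD.near _ _ hH)] with w hw
    exact ⟨H, hw, rfl⟩
  unit := by
    rintro z _ _ ⟨H, hH, rfl⟩ ⟨H', hH', rfl⟩
    obtain ⟨u, h1, h2, h3⟩ := hD.unit _ _ _ hH hH'
    exact ⟨fun v => u (y, v), analyticAt_slice h1, h2, (prod_tendsto y z).eventually h3⟩
  per := by
    rintro z _ ⟨H, hH, rfl⟩ k
    refine ⟨fun w' => H (tr π (-k) w'), ?_, ?_⟩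
    · exact hD.per _ _ hy hH k
    · funext v
      simp only [tr, zr_neg, map_neg]
      rw [← sub_eq_add_neg]
  dense := fun z => hD.slice_dense hy hz₀ z

/-- **The data on the fibre over `y`.** -/
theorem fibD_of (hD : DivDatum π T Z Le) {B : Set P} (hBT : B ⊆ T)
    {w : P × V → (V →L[ℂ] V →L[ℂ] ℂ)} (hw : IsW π Z Le B w) {y : P} (hy : y ∈ B) {z₀ : V}
    (hz₀ : (y, z₀) ∉ Z) {E : V →L[ℝ] V →L[ℝ] ℝ} {lam : V → ℝ} (hE : ∀ v, E v v = 0)
    (hEI : ∀ v w, E (Complex.I • v) (Complex.I • w) = E v w) (hc : Continuous lam)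
    (hp : ∀ z (k : Fin n → ℤ), lam (z + π y (zr k)) = lam z)
    (hl : ∀ z h, LeF Le y z h → ∃ s : V → ℂ, AnalyticAt ℂ s z ∧ ∀ᶠ w in 𝓝 z,
        lam w = ‖Complex.exp (s w) * h w‖ ^ 2 * Real.exp (-(E (Complex.I • w) w))) :
    FibD (π y) {z | (y, z) ∈ Z} (LeF Le y) (frv E) lam (fun z => w (y, z)) := by
  have hO := divOne_of hD (hBT hy) hz₀
  exact
    { ex := hO.ex
      an := hO.an
      zero := hO.zero
      dense := hO.dense
      herm := isHerm_frv hE hEI
      cont := hc
      per := hp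
      loc := fun z h hh => by
        obtain ⟨s, h1, h2⟩ := hl z h hh
        refine ⟨s, h1, ?_⟩
        filter_upwards [h2] with w hw
        rw [hw, frv_re]
      wper := fun z _ k => hw.per (y, z) hy k
      wloc := by
        rintro z _ ⟨H, hH, rfl⟩
        obtain ⟨A, hA, hA'⟩ := hw.loc (y, z) hy H hH
        refine ⟨fun v => A (y, v), analyticAt_slice hA, ?_⟩
        filter_upwards [(prod_tendsto y z).eventually hA',
          (prod_tendsto y z).eventually (hD.an _ _ hH).eventually_analyticAt,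
          (prod_tendsto y z).eventually (hD.zero _ _ hH)] with v h1 h2 h3 hv
        have hv0 : H (y, v) ≠ 0 := fun h0 => hv (h3.1 h0)
        have h4 : w (y, v) = dV (dl H) (y, v) + A (y, v) := h1 hv
        have h5 := dl_analytic h2 hv0
        show w (y, v) = _
        rw [h4, dV_slice h5.differentiableAt]
        congr 1
        refine Filter.EventuallyEq.fderiv_eq ?_
        filter_upwards [(prod_tendsto y v).eventually h2.eventually_analyticAt] with u hu
        show dl H (y, u) = _
        rw [← dV_slice hu.differentiableAt]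
        rfl }

end Vale.Agent.P281.H969.D
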