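import Vale.Agent.P281.MF.Hol
import Mathlib.Analysis.Calculus.InverseFunctionTheorem.ApproximatesLinearOn
import Mathlib.Analysis.Complex.Schwarz
import Mathlib.LinearAlgebra.Matrix.AbsoluteValue

/-!
# P281, project T-Δ (helper969): the image of a slice contains a ball
-/

open Set Filter Metric
open scoped Topology NNReal

noncomputable section

namespace Vale.Agent.P281.H969.D

variable {d : ℕ}

/-- The Jacobian matrix. -/
def jac (h : (Fin d → ℂ) → (Fin d → ℂ)) (v : Fin d → ℂ) : Matrix (Fin d) (Fin d) ℂ :=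
  Matrix.of fun a b => fderiv ℂ h v (Pi.single b 1) a

theorem jac_mulVec (h : (Fin d → ℂ) → (Fin d → ℂ)) (v x : Fin d → ℂ) :
    (jac h v).mulVec x = fderiv ℂ h v x := by
  conv_rhs => rw [pi_eq_sum_univ' x, map_sum]
  ext a
  rw [Matrix.mulVec_eq_sum, Finset.sum_apply, Finset.sum_apply]
  refine Finset.sum_congr rfl fun b _ => ?_
  rw [map_smul]
  simp [jac, mul_comm]

/-- the constant -/
def kj (d : ℕ) (A : ℝ) : ℝ := (d + 1) * (Nat.factorial d * max A 1 ^ d)

theorem kj_pos (d : ℕ) (A : ℝ) : 0 < kj d A := by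
  have h1 : (0 : ℝ) < max A 1 := lt_of_lt_of_le one_pos (le_max_right _ _)
  have h2 : (0 : ℝ) < Nat.factorial d := by exact_mod_cast Nat.factorial_pos d
  unfold kj
  positivity

theorem det_le' {B : ℝ} {M : Matrix (Fin d) (Fin d) ℂ} (hM : ∀ i j, ‖M i j‖ ≤ B) :
    ‖M.det‖ ≤ Nat.factorial d * B ^ d := by
  have h1 := Matrix.det_le (abv := (NormedField.toAbsoluteValue ℂ)) (A := M) (x := B) hM
  rw [nsmul_eq_mul, Fintype.card_fin] at h1
  exact h1

theorem adj_le {A : ℝ} {M : Matrix (Fin d) (Fin d) ℂ} (hM : ∀ i j, ‖M i j‖ ≤ A) (i j : Fin d) :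
    ‖M.adjugate i j‖ ≤ Nat.factorial d * max A 1 ^ d := by
  rw [Matrix.adjugate_apply]
  refine det_le' fun a b => ?_
  rw [Matrix.updateRow_apply]
  split_ifs with h1
  · by_cases hb : b = i
    · subst hb
      simp
    · rw [Pi.single_eq_of_ne hb, norm_zero]
      exact le_trans zero_le_one (le_max_right _ _)
  · exact (hM a b).trans (le_max_left _ _)

theorem adj_mulVec_le {A : ℝ} {M : Matrix (Fin d) (Fin d) ℂ} (hM : ∀ i j, ‖M i j‖ ≤ A)
    (y : Fin d → ℂ) : ‖M.adjugate.mulVec y‖ ≤ kj d A * ‖y‖ := by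
  have h0 : (0 : ℝ) ≤ Nat.factorial d * max A 1 ^ d :=
    mul_nonneg (Nat.cast_nonneg _) (pow_nonneg (le_trans zero_le_one (le_max_right _ _)) _)
  refine (pi_norm_le_iff_of_nonneg (mul_nonneg (kj_pos d A).le (norm_nonneg _))).2 fun i => ?_
  have h1 : ‖M.adjugate.mulVec y i‖ ≤ ∑ _j : Fin d, (Nat.factorial d * max A 1 ^ d) * ‖y‖ := by
    show ‖∑ j, M.adjugate i j * y j‖ ≤ _
    refine (norm_sum_le _ _).trans (Finset.sum_le_sum fun j _ => ?_)
    rw [norm_mul]
    exact mul_le_mul (adj_le hM i j) (norm_le_pi_norm y j) (norm_nonneg _) h0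
  refine h1.trans ?_
  rw [Finset.sum_const, Finset.card_univ, Fintype.card_fin, nsmul_eq_mul]
  unfold kj
  nlinarith [mul_nonneg h0 (norm_nonneg y)]

/-- the radius -/
def cj (d : ℕ) (A r : ℝ) : ℝ := 3 * r / (64 * max A 1 * kj d A ^ 2)

theorem cj_pos (d : ℕ) (A : ℝ) {r : ℝ} (hr : 0 < r) : 0 < cj d A r := by
  have h1 : (0 : ℝ) < max A 1 := lt_of_lt_of_le one_pos (le_max_right _ _)
  have h2 := kj_pos d A
  unfold cj
  positivity

/-- **The image of a slice contains a ball.** -/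
theorem closedBall_subset {A r : ℝ} (hr : 0 < r) {h : (Fin d → ℂ) → (Fin d → ℂ)}
    {v₀ : Fin d → ℂ} (hd : DifferentiableOn ℂ h (ball v₀ r))
    (hA : ∀ v ∈ ball v₀ (r / 2), ‖fderiv ℂ h v‖ ≤ A) (hJ : (jac h v₀).det ≠ 0) :
    closedBall (h v₀) (cj d A r * ‖(jac h v₀).det‖ ^ 2) ⊆ h '' ball v₀ r := by
  set A₁ := max A 1 with hA₁
  set K := kj d A with hK
  set J := (jac h v₀).det with hJdef
  have hA1 : 1 ≤ A₁ := le_max_right _ _
  have hK0 : 0 < K := kj_pos d A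
  have hJ0 : 0 < ‖J‖ := norm_pos_iff.2 hJ
  have hv₀ : v₀ ∈ ball v₀ (r / 2) := mem_ball_self (by positivity)
  have hM : ∀ i j, ‖jac h v₀ i j‖ ≤ A := by
    intro i j
    refine (norm_le_pi_norm (fderiv ℂ h v₀ (Pi.single j 1)) i).trans ?_
    refine ((fderiv ℂ h v₀).le_opNorm _).trans ?_
    rw [Pi.norm_single, norm_one, mul_one]
    exact hA v₀ hv₀
  have hM1 : ∀ i j, ‖jac h v₀ i j‖ ≤ A₁ := fun i j => (hM i j).trans (le_max_left _ _)
  have hJK : ‖J‖ ≤ K := by
    refine (det_le' hM1).trans ?_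
    have h0 : (0 : ℝ) ≤ Nat.factorial d * A₁ ^ d := by positivity
    have h1 : (0 : ℝ) ≤ d := Nat.cast_nonneg _
    rw [hK, kj, ← hA₁]
    nlinarith
  -- the right inverse
  let T : (Fin d → ℂ) →L[ℂ] (Fin d → ℂ) := fderiv ℂ h v₀
  let I : T.NonlinearRightInverse :=
    { toFun := fun y => J⁻¹ • (jac h v₀).adjugate.mulVec y
      nnnorm := ⟨K / ‖J‖, by positivity⟩
      bound' := fun y => by
        rw [norm_smul, norm_inv]
        have h1 := adj_mulVec_le hM y
        show ‖J‖⁻¹ * _ ≤ K / ‖J‖ * ‖y‖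
        rw [div_mul_eq_mul_div, inv_mul_eq_div]
        exact div_le_div_of_nonneg_right h1 hJ0.le
      right_inv' := fun y => by
        show fderiv ℂ h v₀ (J⁻¹ • (jac h v₀).adjugate.mulVec y) = y
        rw [map_smul, ← jac_mulVec, Matrix.mulVec_mulVec, Matrix.mul_adjugate,
          Matrix.smul_mulVec, Matrix.one_mulVec, smul_smul, ← hJdef, inv_mul_cancel₀ hJ,
          one_smul] }
  -- the estimate
  set δ := ‖J‖ * r / (16 * A₁ * K) with hδ
  have hδ0 : 0 < δ := by positivity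
  have hδr : δ < r / 2 := by
    rw [hδ, div_lt_iff₀ (by positivity)]
    have h1 : ‖J‖ * r ≤ K * r := mul_le_mul_of_nonneg_right hJK hr.le
    have h2 : K * r ≤ A₁ * (K * r) := le_mul_of_one_le_left (by positivity) hA1
    have h3 : 0 < A₁ * (K * r) := by positivity
    nlinarith
  have hsub : ball v₀ (r / 2) ⊆ ball v₀ r := ball_subset_ball (by linarith)
  have hana := MF.analyticOnNhd_of_differentiableOn isOpen_ball hd
  have hfd : DifferentiableOn ℂ (fderiv ℂ h) (ball v₀ (r / 2)) := fun v hv =>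
    ((hana v (hsub hv)).fderiv).differentiableAt.differentiableWithinAt
  have hsch : ∀ v ∈ closedBall v₀ δ, ‖fderiv ℂ h v - T‖ ≤ ‖J‖ / (4 * K) := by
    intro v hv
    have hv1 : v ∈ ball v₀ (r / 2) := closedBall_subset_ball hδr hv
    have h1 := Complex.dist_le_div_mul_dist_of_mapsTo_ball (R₂ := 2 * A₁) hfd (fun u hu => by
      rw [mem_closedBall, dist_eq_norm]
      have h2 := norm_sub_le (fderiv ℂ h u) (fderiv ℂ h v₀)
      have h3 := (hA u hu).trans (le_max_left A 1)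
      have h4 := (hA v₀ hv₀).trans (le_max_left A 1)
      rw [← hA₁] at h3 h4
      linarith) hv1
    rw [dist_eq_norm] at h1
    refine h1.trans ?_
    have h2 : dist v v₀ ≤ δ := hv
    have h3 : 2 * A₁ / (r / 2) * dist v v₀ ≤ 2 * A₁ / (r / 2) * δ :=
      mul_le_mul_of_nonneg_left h2 (by positivity)
    refine h3.trans (le_of_eq ?_)
    rw [hδ]
    field_simp
    ring
  have happ : ApproximatesLinearOn h T (closedBall v₀ δ) ⟨‖J‖ / (4 * K), by positivity⟩ := by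
    intro x hx y hy
    exact (convex_closedBall v₀ δ).norm_image_sub_le_of_norm_fderiv_le'
      (fun u hu => (hana u (hsub (closedBall_subset_ball hδr hu))).differentiableAt) hsch hy hx
  have h5 : SurjOn h (closedBall v₀ δ)
      (closedBall (h v₀) (((K / ‖J‖)⁻¹ - ‖J‖ / (4 * K)) * δ)) :=
    happ.surjOn_closedBall_of_nonlinearRightInverse I hδ0.le Subset.rfl
  have h6 : cj d A r * ‖J‖ ^ 2 = ((K / ‖J‖)⁻¹ - ‖J‖ / (4 * K)) * δ := by
    rw [hδ, cj, ← hA₁, ← hK, inv_div]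
    field_simp
    ring
  rw [← h6] at h5
  intro y hy
  obtain ⟨x, hx, hxy⟩ := h5 hy
  exact ⟨x, hsub (closedBall_subset_ball hδr hx), hxy⟩

/-- The lattice has no short vectors, if the slice is injective modulo the lattice. -/
theorem le_norm_of_slice {A r : ℝ} (hr : 0 < r) {h : (Fin d → ℂ) → (Fin d → ℂ)}
    {v₀ : Fin d → ℂ} (hd : DifferentiableOn ℂ h (ball v₀ r))
    (hA : ∀ v ∈ ball v₀ (r / 2), ‖fderiv ℂ h v‖ ≤ A) (hJ : (jac h v₀).det ≠ 0)
    {γ : Fin d → ℂ} (hinj : ∀ v ∈ ball v₀ r, ∀ v' ∈ ball v₀ r, h v' = h v + γ → v = v')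
    (hγ : γ ≠ 0) : 2 * (cj d A r * ‖(jac h v₀).det‖ ^ 2) ≤ ‖γ‖ := by
  by_contra hcon
  push Not at hcon
  have h1 := closedBall_subset hr hd hA hJ
  have h2 : ∀ ε : ℝ, |ε| ≤ 1 / 2 → h v₀ + ε • γ ∈ h '' ball v₀ r := by
    intro ε hε
    refine h1 ?_
    rw [mem_closedBall, dist_eq_norm, add_sub_cancel_left, norm_smul, Real.norm_eq_abs]
    have h3 : |ε| * ‖γ‖ ≤ 1 / 2 * ‖γ‖ := mul_le_mul_of_nonneg_right hε (norm_nonneg _)
    linarith
  obtain ⟨v, hv, hv1⟩ := h2 (-(1 / 2)) (by rw [abs_neg, abs_of_pos] <;> norm_num)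
  obtain ⟨v', hv', hv'1⟩ := h2 (1 / 2) (by rw [abs_of_pos] <;> norm_num)
  have h3 : h v' = h v + γ := by
    rw [hv1, hv'1]
    module
  have h4 := hinj v hv v' hv' h3
  rw [h4] at h3
  exact hγ (by simpa using h3.symm)

end Vale.Agent.P281.H969.D
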