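import Vale.Agent.P281.H969.D.Datum
import Vale.Agent.P281.H969.D.Slice
import Vale.Agent.P281.H713.DefsG

/-!
# P281, project T-Δ (helper969): **D4**, the bound of the third logarithmic derivatives
-/

open Set Filter Metric Complex Real MeasureTheory
open scoped Topology ENNReal ComplexConjugate

noncomputable section

namespace Vale.Agent.P281.H969.D

variable {d n : ℕ} {V : Type} [NormedAddCommGroup V] [InnerProductSpace ℂ V]
  [FiniteDimensional ℂ V]

/-- The exponent. -/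
def ex (d : ℕ) : ℕ := 4 * d ^ 2 + 4 * d + 3

/-- Symmetric trilinear functions. -/
structure IsCub (φ : V → V → V → ℂ) : Prop where
  add : ∀ a a' b c, φ (a + a') b c = φ a b c + φ a' b c
  smul : ∀ (s : ℂ) a b c, φ (s • a) b c = s * φ a b c
  h12 : ∀ a b c, φ a b c = φ b a c
  h23 : ∀ a b c, φ a b c = φ a c b

/-- **The estimate** (`SpecA.EstStmt`, without a global theta function). -/
theorem est_pol (b : OrthonormalBasis (Fin d) ℂ V) (Q : (Fin n → ℝ) → (Fin n → ℝ) → ℝ) {τ : ℝ}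
    (hτ : 0 ≤ τ) : ∃ B : ℝ, 0 ≤ B ∧ ∀ (P : (Fin n → ℝ) ≃L[ℝ] V) (S : V → V → ℂ) (lam : V → ℝ),
      (∀ x x', (inner ℂ (P x) (P x')).im = Q x x') → IsThetaD P S lam →
      (∀ w, (S w w).re ≤ τ * ‖w‖ ^ 2) → ∀ (v₀ : V) (δ : ℝ), 0 < δ → δ ≤ 1 →
      (∀ v ∈ ball v₀ δ, lam v ≠ 0) →
      (∀ v ∈ ball v₀ δ, ∀ m : Fin n → ℤ, (v + P fun i => (m i : ℝ)) ∈ ball v₀ δ → m = 0) →
      ∀ s : V → ℂ, AnalyticAt ℂ s v₀ →
      (∀ᶠ z in 𝓝 v₀, lam z = Real.exp (2 * (s z).re - (S z z).re)) →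
      ∀ φ : V → V → V → ℂ, IsCub φ →
      (∀ w, φ w w w = iteratedDeriv 3 (fun t : ℂ => s (v₀ + t • w)) 0) →
      ∀ x y z, ‖φ x y z‖ * δ ^ ex d ≤ B * (‖x‖ * ‖y‖ * ‖z‖) := by
  obtain ⟨c, hc0, hc⟩ := covol b Q
  refine ⟨27 / 6 * bd d (τ * d ^ 2) c, mul_nonneg (by norm_num)
    (bd_nonneg d (by positivity) hc0), ?_⟩
  intro P S lam hP h hS v₀ δ hδ hδ1 hne hinj s hs hlam φ hφ hφs x y z
  have hδN : 0 < δ ^ ex d := by positivity
  have h1 : ∀ w : V, ‖w‖ ≤ 1 → ‖φ w w w‖ ≤ bd d (τ * d ^ 2) c / δ ^ ex d := by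
    intro w hw
    rw [le_div_iff₀ hδN, hφs w]
    exact h.third_le b hc0 hτ hS (hc P hP) hδ hδ1 hne hinj hs hlam hw
  have h2 := polar hφ.add hφ.smul hφ.h12 hφ.h23 h1 x y z
  calc ‖φ x y z‖ * δ ^ ex d
      ≤ 27 / 6 * (bd d (τ * d ^ 2) c / δ ^ ex d) * (‖x‖ * ‖y‖ * ‖z‖) * δ ^ ex d :=
        mul_le_mul_of_nonneg_right h2 hδN.le
    _ = 27 / 6 * bd d (τ * d ^ 2) c * (‖x‖ * ‖y‖ * ‖z‖) := by
        field_simp

/-- `G`, as a real map. -/
def gr (G : V ≃L[ℂ] V) : V ≃L[ℝ] V := G.restrictScalars ℝ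

omit [FiniteDimensional ℂ V] in
/-- Transport by an isomorphism. -/
theorem IsThetaD.map {P : (Fin n → ℝ) ≃L[ℝ] V} {S : V → V → ℂ} {lam : V → ℝ}
    (h : IsThetaD P S lam) (G : V ≃L[ℂ] V) :
    IsThetaD (P.trans (gr G)) (fun v w => S (G.symm v) (G.symm w)) (fun v => lam (G.symm v)) where
  herm :=
    { add := fun v v' w => by rw [map_add, h.herm.add]
      smul := fun c v w => by rw [map_smul, h.herm.smul]
      symm := fun v w => h.herm.symm _ _ }
  cont := h.cont.comp G.symm.continuous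
  nonneg := fun v => h.nonneg _
  ne := by
    obtain ⟨v, hv⟩ := h.ne
    exact ⟨G v, by rwa [ContinuousLinearEquiv.symm_apply_apply]⟩
  per := fun v m => by
    have h1 : G.symm (v + (P.trans (gr G)) fun i => (m i : ℝ)) =
        G.symm v + P fun i => (m i : ℝ) := by
      rw [map_add]
      congr 1
      exact G.symm_apply_apply _
    rw [h1, h.per]
  loc := fun z => by
    obtain ⟨θ, h1, h2⟩ := h.loc (G.symm z)
    have h3 : AnalyticAt ℂ (fun y => G.symm y) z := G.symm.analyticAt z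
    exact ⟨fun y => θ (G.symm y), AnalyticAt.fun_comp (g := θ) (f := fun y => G.symm y) h1 h3,
      h3.continuousAt.eventually h2⟩

theorem norm_co_le (b : OrthonormalBasis (Fin d) ℂ V) : ‖(co b : V →L[ℂ] (Fin d → ℂ))‖ ≤ 1 :=
  ContinuousLinearMap.opNorm_le_bound _ zero_le_one fun v => by
    rw [one_mul]
    exact co_le b v

/-- The minors, in coordinates. -/
theorem minor_le (b : OrthonormalBasis (Fin d) ℂ V) {g : (Fin d → ℂ) → V} {v : Fin d → ℂ}
    (hg : DifferentiableAt ℂ g v) {m : Fin d → (V →L[ℂ] ℂ)} (hm : ∀ i, ‖m i‖ ≤ 1) :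
    ‖H713.minor m g v‖ ≤ Nat.factorial d * ‖(jac (fun u => co b (g u)) v).det‖ := by
  have h1 : (Matrix.of fun i j => m i (fderiv ℂ g v (Pi.single j 1))) =
      (Matrix.of fun i k => m i (b k)) * jac (fun u => co b (g u)) v := by
    ext i j
    rw [Matrix.mul_apply]
    simp only [Matrix.of_apply, jac]
    have h2 : fderiv ℂ (fun u => co b (g u)) v = (co b : V →L[ℂ] (Fin d → ℂ)).comp (fderiv ℂ g v) :=
      ((co b : V →L[ℂ] (Fin d → ℂ)).hasFDerivAt.comp v hg.hasFDerivAt).fderiv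
    rw [h2]
    have h3 := co_symm_eq b (co b (fderiv ℂ g v (Pi.single j 1)))
    rw [ContinuousLinearEquiv.symm_apply_apply] at h3
    conv_lhs => rw [h3, map_sum]
    refine Finset.sum_congr rfl fun k _ => ?_
    rw [map_smul, smul_eq_mul, mul_comm]
    rfl
  rw [H713.minor, h1, Matrix.det_mul, norm_mul]
  refine mul_le_mul_of_nonneg_right ?_ (norm_nonneg _)
  have h4 := det_le' (B := 1) (M := Matrix.of fun i k => m i (b k)) (fun i k => by
    rw [Matrix.of_apply]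
    refine ((m i).le_opNorm _).trans ?_
    rw [b.orthonormal.1 k, mul_one]
    exact hm i)
  simpa using h4

/-- **D4**, on slices. -/
theorem slice_bound (b : OrthonormalBasis (Fin d) ℂ V) (Q : (Fin n → ℝ) → (Fin n → ℝ) → ℝ)
    {τ r : ℝ} (A : ℝ) (hτ : 0 ≤ τ) (hr : 0 < r) :
    ∃ B : ℝ, 0 ≤ B ∧ ∀ (P : (Fin n → ℝ) ≃L[ℝ] V) (G : V ≃L[ℂ] V) (S : V → V → ℂ) (lam : V → ℝ)
      (h : (Fin d → ℂ) → V) (v₀ : Fin d → ℂ),
      (∀ x x', (inner ℂ (G (P x)) (G (P x'))).im = Q x x') → IsThetaD P S lam →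
      (∀ w, (S w w).re ≤ τ * ‖G w‖ ^ 2) → DifferentiableOn ℂ h (ball v₀ r) →
      (∀ v ∈ ball v₀ (r / 2), ‖fderiv ℂ (fun u => G (h u)) v‖ ≤ A) →
      (∀ v ∈ ball v₀ r, ∀ v' ∈ ball v₀ r, ∀ m : Fin n → ℤ, (h v' = h v + P fun i => (m i : ℝ)) →
        v = v') → (∀ v ∈ ball v₀ r, lam (h v) ≠ 0) → ∀ s : V → ℂ, AnalyticAt ℂ s (h v₀) →
      (∀ᶠ z in 𝓝 (h v₀), lam z = Real.exp (2 * (s z).re - (S z z).re)) →
      ∀ φ : V → V → V → ℂ, IsCub φ →
      (∀ w, φ w w w = iteratedDeriv 3 (fun t : ℂ => s (h v₀ + t • w)) 0) →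
      ∀ m : Fin d → (V →L[ℂ] ℂ), (∀ i, ‖m i‖ ≤ 1) → ∀ x y z,
        ‖H713.minor m (fun u => G (h u)) v₀‖ ^ (2 * ex d) *
          ‖φ (G.symm x) (G.symm y) (G.symm z)‖ ≤ B * (‖x‖ * ‖y‖ * ‖z‖) := by
  obtain ⟨B₀, hB₀, hest⟩ := est_pol (n := n) b Q hτ
  set c := cj d A r / (1 + r) with hc
  have hr1 : 0 < 1 + r := by linarith
  have hc0 : 0 < c := div_pos (cj_pos d A hr) hr1
  refine ⟨(Nat.factorial d : ℝ) ^ (2 * ex d) * (B₀ / c ^ ex d), by positivity, ?_⟩
  intro P G S lam h v₀ hQ hth hS hd hA hinj hne s hs hlam φ hφ hφs m hm x y z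
  have hv₀r : v₀ ∈ ball v₀ r := mem_ball_self hr
  have hGh : DifferentiableOn ℂ (fun u => G (h u)) (ball v₀ r) :=
    (G : V →L[ℂ] V).differentiable.comp_differentiableOn hd
  set H : (Fin d → ℂ) → (Fin d → ℂ) := fun u => co b (G (h u)) with hH
  have hHd : DifferentiableOn ℂ H (ball v₀ r) :=
    (co b : V →L[ℂ] (Fin d → ℂ)).differentiable.comp_differentiableOn hGh
  have hHA : ∀ v ∈ ball v₀ (r / 2), ‖fderiv ℂ H v‖ ≤ A := by
    intro v hv
    have hvr : v ∈ ball v₀ r := ball_subset_ball (by linarith) hv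
    have h2 : fderiv ℂ H v = (co b : V →L[ℂ] (Fin d → ℂ)).comp (fderiv ℂ (fun u => G (h u)) v) :=
      ((co b : V →L[ℂ] (Fin d → ℂ)).hasFDerivAt.comp v
        (hGh.differentiableAt (isOpen_ball.mem_nhds hvr)).hasFDerivAt).fderiv
    rw [h2]
    refine (ContinuousLinearMap.opNorm_comp_le _ _).trans ?_
    calc ‖(co b : V →L[ℂ] (Fin d → ℂ))‖ * ‖fderiv ℂ (fun u => G (h u)) v‖
        ≤ 1 * ‖fderiv ℂ (fun u => G (h u)) v‖ :=
          mul_le_mul_of_nonneg_right (norm_co_le b) (norm_nonneg _)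
      _ ≤ A := by
          rw [one_mul]
          exact hA v hv
  have hmin := minor_le b (hGh.differentiableAt (isOpen_ball.mem_nhds hv₀r)) hm
  set J := (jac H v₀).det with hJ
  by_cases hJ0 : J = 0
  · rw [hJ0, norm_zero, mul_zero] at hmin
    have h1 : ‖H713.minor m (fun u => G (h u)) v₀‖ = 0 := le_antisymm hmin (norm_nonneg _)
    rw [h1, zero_pow (by unfold ex; omega), zero_mul]
    positivity
  have hJpos : 0 < ‖J‖ := norm_pos_iff.2 hJ0
  -- the ball in the image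
  have hsub := closedBall_subset hr hHd hHA hJ0
  set δ := c * ‖J‖ ^ 2 with hδ
  have hδ0 : 0 < δ := by positivity
  have hδle : δ ≤ cj d A r * ‖J‖ ^ 2 := by
    rw [hδ, hc]
    refine mul_le_mul_of_nonneg_right ?_ (by positivity)
    exact div_le_self (cj_pos d A hr).le (by linarith)
  have hJK : ‖J‖ ≤ kj d A := by
    have hM : ∀ i j, ‖jac H v₀ i j‖ ≤ max A 1 := by
      intro i j
      refine (norm_le_pi_norm (fderiv ℂ H v₀ (Pi.single j 1)) i).trans ?_
      refine ((fderiv ℂ H v₀).le_opNorm _).trans ?_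
      rw [Pi.norm_single, norm_one, mul_one]
      exact (hHA v₀ (mem_ball_self (by positivity))).trans (le_max_left _ _)
    refine (det_le' hM).trans ?_
    have h0 : (0 : ℝ) ≤ Nat.factorial d * max A 1 ^ d := by positivity
    have h1 : (0 : ℝ) ≤ d := Nat.cast_nonneg _
    rw [kj]
    nlinarith
  have hδ1 : δ ≤ 1 := by
    have hA1 : (1 : ℝ) ≤ max A 1 := le_max_right _ _
    have hK0 := kj_pos d A
    have h1 : ‖J‖ ^ 2 ≤ kj d A ^ 2 := pow_le_pow_left₀ (norm_nonneg _) hJK 2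
    have h2 : cj d A r * ‖J‖ ^ 2 ≤ r := by
      calc cj d A r * ‖J‖ ^ 2 ≤ cj d A r * kj d A ^ 2 :=
            mul_le_mul_of_nonneg_left h1 (cj_pos d A hr).le
        _ = 3 * r / (64 * max A 1) := by
            rw [cj]
            field_simp
        _ ≤ r := by
            rw [div_le_iff₀ (by positivity)]
            nlinarith
    have h3 : δ = cj d A r * ‖J‖ ^ 2 / (1 + r) := by
      rw [hδ, hc]
      ring
    rw [h3, div_le_one hr1]
    linarith
  have himg : ∀ y ∈ ball (G (h v₀)) δ, ∃ v ∈ ball v₀ r, G (h v) = y := by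
    intro y hy
    rw [mem_ball_iff_norm] at hy
    have h1 : co b y ∈ closedBall (H v₀) (cj d A r * ‖J‖ ^ 2) := by
      rw [mem_closedBall, dist_eq_norm, hH]
      show ‖co b y - co b (G (h v₀))‖ ≤ _
      rw [← map_sub]
      exact (co_le b _).trans (hy.le.trans hδle)
    obtain ⟨v, hv, hvy⟩ := hsub h1
    exact ⟨v, hv, (co b).injective hvy⟩
  have hmain := hest (P.trans (gr G)) (fun v w => S (G.symm v) (G.symm w))
    (fun v => lam (G.symm v)) hQ (hth.map G) (fun w => by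
      have h1 := hS (G.symm w)
      rwa [ContinuousLinearEquiv.apply_symm_apply] at h1) (G (h v₀)) δ hδ0 hδ1 (by
      intro y hy
      obtain ⟨v, hv, rfl⟩ := himg y hy
      rw [ContinuousLinearEquiv.symm_apply_apply]
      exact hne v hv) (by
      intro y hy k hk
      obtain ⟨v, hv, rfl⟩ := himg y hy
      obtain ⟨v', hv', hvk⟩ := himg _ hk
      have h1 : h v' = h v + P fun i => (k i : ℝ) := by
        apply G.injective
        rw [hvk, map_add]
        rfl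
      have h2 := hinj v hv v' hv' k h1
      rw [← h2] at h1
      have h3 : P (fun i => (k i : ℝ)) = 0 := by simpa using h1
      have h4 : (fun i => (k i : ℝ)) = 0 := by simpa using h3
      ext i
      have h5 := congrFun h4 i
      simpa using h5) (fun v => s (G.symm v)) (by
      have h3 : AnalyticAt ℂ (fun y => G.symm y) (G (h v₀)) := G.symm.analyticAt _
      refine AnalyticAt.fun_comp (g := s) (f := fun y => G.symm y) ?_ h3
      rwa [ContinuousLinearEquiv.symm_apply_apply]) (by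
      have h1 : Tendsto (fun y => G.symm y) (𝓝 (G (h v₀))) (𝓝 (h v₀)) := by
        have h2 := G.symm.continuous.tendsto (G (h v₀))
        rwa [ContinuousLinearEquiv.symm_apply_apply] at h2
      exact h1.eventually hlam) (fun x y z => φ (G.symm x) (G.symm y) (G.symm z))
    { add := fun x x' y z => by rw [map_add, hφ.add]
      smul := fun s x y z => by rw [map_smul, hφ.smul]
      h12 := fun x y z => hφ.h12 _ _ _
      h23 := fun x y z => hφ.h23 _ _ _ } (fun w => by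
      rw [hφs]
      simp only [map_add, map_smul, ContinuousLinearEquiv.symm_apply_apply]) x y z
  have h1 : ‖H713.minor m (fun u => G (h u)) v₀‖ ^ (2 * ex d) ≤
      (Nat.factorial d : ℝ) ^ (2 * ex d) * (δ ^ ex d / c ^ ex d) := by
    refine (pow_le_pow_left₀ (norm_nonneg _) hmin _).trans (le_of_eq ?_)
    rw [mul_pow, hδ, mul_pow c, pow_mul ‖J‖ 2, mul_div_cancel_left₀ _ (by positivity)]
  calc ‖H713.minor m (fun u => G (h u)) v₀‖ ^ (2 * ex d) *
        ‖φ (G.symm x) (G.symm y) (G.symm z)‖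
      ≤ (Nat.factorial d : ℝ) ^ (2 * ex d) * (δ ^ ex d / c ^ ex d) *
        ‖φ (G.symm x) (G.symm y) (G.symm z)‖ := mul_le_mul_of_nonneg_right h1 (norm_nonneg _)
    _ = (Nat.factorial d : ℝ) ^ (2 * ex d) / c ^ ex d *
        (‖φ (G.symm x) (G.symm y) (G.symm z)‖ * δ ^ ex d) := by ring
    _ ≤ (Nat.factorial d : ℝ) ^ (2 * ex d) / c ^ ex d * (B₀ * (‖x‖ * ‖y‖ * ‖z‖)) :=
        mul_le_mul_of_nonneg_left hmain (by positivity)
    _ = _ := by ring

/-- The form is bounded by its trace. -/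
theorem IsThetaD.form_le_trace {P : (Fin n → ℝ) ≃L[ℝ] V} {S : V → V → ℂ} {lam : V → ℝ}
    (h : IsThetaD P S lam) (b : OrthonormalBasis (Fin d) ℂ V) (w : V) :
    (S w w).re ≤ d * (∑ i, (S (b i) (b i)).re) * ‖w‖ ^ 2 := by
  have h1 := hf_le_trace (h.herm.isHermitian b) (fun x => by
    rw [h.herm.hf_eq]
    exact h.form_nonneg _) (co b w)
  rw [h.herm.hf_eq, ContinuousLinearEquiv.symm_apply_apply, Matrix.trace, Complex.re_sum] at h1
  have h2 : ∑ i, ((mat b S).diag i).re = ∑ i, (S (b i) (b i)).re := rfl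
  rw [h2] at h1
  have h3 : 0 ≤ ∑ i, (S (b i) (b i)).re := Finset.sum_nonneg fun i _ => h.form_nonneg _
  have h4 : ‖co b w‖ ^ 2 ≤ ‖w‖ ^ 2 := pow_le_pow_left₀ (norm_nonneg _) (co_le b w) 2
  refine h1.trans (mul_le_mul_of_nonneg_left h4 (by positivity))

end Vale.Agent.P281.H969.D
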