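import Vale.Agent.P281.H969.D.Man
import Vale.Agent.P281.H152.D.Div
import Vale.Agent.P281.H349.D.Pole

/-!
# P281, project T-Δ (helper969): the gluing
-/

open Set Filter Metric MeasureTheory Vale.Agent.P281 Vale.Agent.P281.H713
open Vale.Agent.P281.H64.TU (Tame)
open Vale.Agent.P281.H64.TD (IsTorM IsTorD Cub)
open Vale.Agent.P281.H125.D

open scoped Topology ContDiff Manifold

noncomputable section

namespace Vale.Agent.P281.H969.D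

section Glue

variable {EX EY : Type} [NormedAddCommGroup EX] [NormedSpace ℂ EX]
  [NormedAddCommGroup EY] [NormedSpace ℂ EY]
variable {X Y : Type} [TopologicalSpace X] [ChartedSpace EX X]
  [TopologicalSpace Y] [ChartedSpace EY Y]
variable {V : Type} [NormedAddCommGroup V] [InnerProductSpace ℂ V] [FiniteDimensional ℂ V]
variable {n d : ℕ} {T : Tame (Fin d → ℂ) X} {f : X → Y} {S : Set Y}
  {Q : (Fin n → ℝ) → (Fin n → ℝ) → ℝ} {ι : Type} {U : ι → Set Y}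
  {π : ι → Y → ((Fin n → ℝ) ≃L[ℝ] V)} {u : ι → Y → V → X} {𝒜 : Set (Set X)}
  {Φ : ι → Y → V → (V →L[ℂ] V →L[ℂ] V →L[ℂ] ℂ)}
  {cub : (V →L[ℂ] V →L[ℂ] V →L[ℂ] ℂ) →L[ℂ] Cub V}

/-- `β` is a lift of the fibres to `V`, `w` the third logarithmic derivative. -/
def LG (EX : Type) [NormedAddCommGroup EX] [NormedSpace ℂ EX] [ChartedSpace EX X]
    (f : X → Y) (U : ι → Set Y) (u : ι → Y → V → X) (𝒜 : Set (Set X))
    (cub : (V →L[ℂ] V →L[ℂ] V →L[ℂ] ℂ) →L[ℂ] Cub V)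
    (Φ : ι → Y → V → (V →L[ℂ] V →L[ℂ] V →L[ℂ] ℂ)) (a : ι) (x : X) (β : X → V)
    (w : X → Cub V) : Prop :=
  f x ∈ U a ∧ ContMDiffAt 𝓘(ℂ, EX) 𝓘(ℂ, V) ω β x ∧ (∀ᶠ z in 𝓝 x, u a (f z) (β z) = z) ∧
    ∀ᶠ z in 𝓝 x, (∀ D ∈ 𝒜, z ∉ D) → w z = cub (Φ a (f z) (β z))

/-- The inputs about `Φ` (helper125). -/
structure IsPhi (EX EY : Type) [NormedAddCommGroup EX] [NormedSpace ℂ EX]
    [NormedAddCommGroup EY] [NormedSpace ℂ EY] [ChartedSpace EX X] [ChartedSpace EY Y]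
    (U : ι → Set Y) (π : ι → Y → ((Fin n → ℝ) ≃L[ℝ] V)) (u : ι → Y → V → X)
    (𝒜 : Set (Set X)) (Φ : ι → Y → V → (V →L[ℂ] V →L[ℂ] V →L[ℂ] ℂ)) : Prop where
  fib : ∀ a, ∀ y ∈ U a, ∃ wf : V → V →L[ℂ] V →L[ℂ] ℂ,
      (∀ z, (∀ D ∈ 𝒜, u a y z ∉ D) → ∀ k : Fin n → ℤ, wf (z + π a y (zr k)) = wf z) ∧
      (∀ z g, LeA EX 𝒜 (u a y) z g → ∃ A : V → V →L[ℂ] V →L[ℂ] ℂ, AnalyticAt ℂ A z ∧
        ∀ᶠ w in 𝓝 z, (∀ D ∈ 𝒜, u a y w ∉ D) →
          wf w = fderiv ℂ (fun u => (g u)⁻¹ • fderiv ℂ g u) w + A w) ∧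
      ∀ z, (∀ D ∈ 𝒜, u a y z ∉ D) → Φ a y z = fderiv ℂ wf z
  nat : ∀ a b, ∀ y ∈ U a ∩ U b, ∀ (G : V ≃L[ℂ] V) (c : V),
      (∀ m : Fin n → ℤ, ∃ m' : Fin n → ℤ, G (π a y (zr m)) = π b y (zr m')) →
      (∀ w, u b y (G w + c) = u a y w) → ∀ z, (∀ D ∈ 𝒜, u a y z ∉ D) → ∀ x₁ x₂ x₃,
        Φ b y (G z + c) (G x₁) (G x₂) (G x₃) = Φ a y z x₁ x₂ x₃
  pole : ∀ a, ∀ y ∈ U a, ∀ v, ∀ e : Set X → X → ℂ, (∀ D ∈ 𝒜, J.IsLocalEq EX D (e D) (u a y v)) →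
      ∃ (χ : OpenPartialHomeomorph Y EY) (H : EY × V → (V →L[ℂ] V →L[ℂ] V →L[ℂ] ℂ)),
        χ ∈ IsManifold.maximalAtlas 𝓘(ℂ, EY) ω Y ∧ y ∈ χ.source ∧ AnalyticAt ℂ H (χ y, v) ∧
        ∀ᶠ z in 𝓝 (χ y, v), (∀ D ∈ 𝒜, u a (χ.symm z.1) z.2 ∉ D) → ∀ x₁ x₂ x₃,
          (∏ᶠ (D : Set X) (_ : D ∈ 𝒜), e D (u a (χ.symm z.1) z.2)) ^ 3 *
            Φ a (χ.symm z.1) z.2 x₁ x₂ x₃ = H z x₁ x₂ x₃

/-- Two lifts: `β` is near `x` the chart. -/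
theorem lift_unique (hf : Continuous f) (hM : IsTorM EX EY d T f S Q U π u) {a : ι} {x : X}
    (hx : f x ∈ U a) {β : X → V} (hβ : ContMDiffAt 𝓘(ℂ, EX) 𝓘(ℂ, V) ω β x)
    (hu : ∀ᶠ z in 𝓝 x, u a (f z) (β z) = z) :
    ∃ ζ : X → V, β =ᶠ[𝓝 x] ζ ∧ (∀ᶠ z in 𝓝 (f x, β x), ζ (u a z.1 z.2) = z.2) ∧
    ∀ ξ : EX, mfderiv 𝓘(ℂ, EX) 𝓘(ℂ, EY) f x ξ = 0 →
      mfderiv 𝓘(ℂ, EX) 𝓘(ℂ, V) ζ x ξ = 0 → ξ = 0 := by
  obtain ⟨ζ, h1, h2, h3, h4, h5⟩ := hM.chart a (f x) hx (β x)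
  have h0 : u a (f x) (β x) = x := hu.self_of_nhds
  rw [h0] at h1 h2 h3 h5
  refine ⟨ζ, ?_, h4, h5⟩
  have h6 : Tendsto (fun z => (f z, β z)) (𝓝 x) (𝓝 (f x, β x)) :=
    (hf.tendsto x).prodMk_nhds hβ.continuousAt
  filter_upwards [h6.eventually h4, hu] with z h7 h8
  rw [h8] at h7
  exact h7.symm

/-- The change of lifts. -/
theorem lift_change (hf : Continuous f) (hM : IsTorM EX EY d T f S Q U π u) {a b : ι} {x : X}
    (ha : f x ∈ U a) (hb : f x ∈ U b) {β β' : X → V} (hβ : ContMDiffAt 𝓘(ℂ, EX) 𝓘(ℂ, V) ω β x)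
    (hu : ∀ᶠ z in 𝓝 x, u a (f z) (β z) = z) (hβ' : ContMDiffAt 𝓘(ℂ, EX) 𝓘(ℂ, V) ω β' x)
    (hu' : ∀ᶠ z in 𝓝 x, u b (f z) (β' z) = z) :
    ∃ (G : V ≃L[ℂ] V) (c : V), IsPeriodChange Q (π a (f x)) (π b (f x)) G ∧
      (∀ w, u b (f x) (G w + c) = u a (f x) w) ∧
      ∀ᶠ z in 𝓝 x, f z = f x → β' z = G (β z) + c := by
  have h0 : u a (f x) (β x) = x := hu.self_of_nhds
  have h0' : u b (f x) (β' x) = x := hu'.self_of_nhds
  obtain ⟨G, c, h1, h2, h3⟩ := hM.trans a b (f x) ⟨ha, hb⟩ (β x) (β' x) (by rw [h0, h0'])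
  refine ⟨G, c, h1, h3, ?_⟩
  obtain ⟨ζ, h4, h5, -⟩ := lift_unique hf hM hb hβ' hu'
  have h6 : Tendsto (fun z => (f x, G (β z) + c)) (𝓝 x) (𝓝 (f x, β' x)) := by
    have h7 : ContinuousAt (fun z => G (β z) + c) x :=
      (G.continuous.continuousAt.comp hβ.continuousAt).add continuousAt_const
    have h8 : Tendsto (fun z => G (β z) + c) (𝓝 x) (𝓝 (β' x)) := by
      rw [← h2]
      exact h7
    exact tendsto_const_nhds.prodMk_nhds h8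
  filter_upwards [h4, h6.eventually h5, hu] with z k1 k2 k3 k4
  rw [k4] at k3
  rw [k1, ← k2]
  show ζ z = ζ (u b (f x) (G (β z) + c))
  rw [h3, k3]

variable [IsManifold 𝓘(ℂ, EX) ω X] [IsManifold 𝓘(ℂ, EY) ω Y]
  [FiniteDimensional ℂ EY]

/-- The gluing. -/
theorem torD_of (hf : ContMDiff 𝓘(ℂ, EX) 𝓘(ℂ, EY) ω f) (hM : IsTorM EX EY d T f S Q U π u)
    (h𝒜 : 𝒜.Finite) (hcub : ∀ φ x y z, cub φ ![x, y, z] = φ x y z)
    (hΦ : IsPhi EX EY U π u 𝒜 Φ) {τ : ℝ} (hτ : 0 ≤ τ)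
    (hfib : ∀ a, ∀ y ∈ U a, ∃ (Le : V → (V → ℂ) → Prop) (S' : V → V → ℂ) (lam : V → ℝ)
      (wf : V → V →L[ℂ] V →L[ℂ] ℂ), FibD (π a y) {v | ∃ D ∈ 𝒜, u a y v ∈ D} Le S' lam wf ∧
      (∀ v, (∀ D ∈ 𝒜, u a y v ∉ D) → ∀ x₁ x₂ x₃, Φ a y v x₁ x₂ x₃ = fderiv ℂ wf v x₁ x₂ x₃) ∧
      ∀ G : V ≃L[ℂ] V, (∀ x x', (inner ℂ (G (π a y x)) (G (π a y x'))).im = Q x x') →
        ∀ w, (S' w w).re ≤ τ * ‖G w‖ ^ 2) :
    IsTorD EX EY d T f S Q U π 𝒜 (LG EX f U u 𝒜 cub Φ) := by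
  classical
  have hfc := hf.continuous
  exact
  { hM.toIsPeriodFamily with
    dim := hM.dim
    lift := fun a x hx => by
      obtain ⟨v, hv⟩ := hM.surj a x hx
      obtain ⟨ζ, h1, h2, h3, h4, h5⟩ := hM.chart a (f x) hx v
      rw [hv] at h1 h3
      exact ⟨ζ, fun z => cub (Φ a (f z) (ζ z)), hx, h1, h3, Eventually.of_forall fun z _ => rfl⟩
    bhol := fun a x β w h => by
      obtain ⟨hx, h1, h2, h3⟩ := h
      refine ⟨h1, fun ξ k1 k2 => ?_⟩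
      obtain ⟨ζ, h4, -, h5⟩ := lift_unique hfc hM hx h1 h2
      refine h5 ξ k1 ?_
      rw [← h4.mfderiv_eq]
      exact k2
    pole := fun a x β w h F e hF he => by
      obtain ⟨hx, h1, h2, h3⟩ := h
      have h0 : u a (f x) (β x) = x := h2.self_of_nhds
      obtain ⟨χ, H, hχ, hχs, k1, k2⟩ := hΦ.pole a (f x) hx (β x) e (by
        intro D hD
        rw [h0]
        exact he D (hF D hD))
      have hχf : ContMDiffAt 𝓘(ℂ, EX) 𝓘(ℂ, EY) ω (fun z => χ (f z)) x :=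
        ContMDiffAt.comp (g := χ) (f := f) x
          ((contMDiffOn_of_mem_maximalAtlas hχ).contMDiffAt (χ.open_source.mem_nhds hχs)) (hf x)
      have hpair : ContMDiffAt 𝓘(ℂ, EX) 𝓘(ℂ, EY × V) ω (fun z => (χ (f z), β z)) x :=
        hχf.prodMk_space h1
      have hcubm : ContMDiff 𝓘(ℂ, V →L[ℂ] V →L[ℂ] V →L[ℂ] ℂ) 𝓘(ℂ, Cub V) ω cub :=
        cub.contMDiff
      set F' : Finset (Set X) := F.filter fun D => D ∉ 𝒜 with hF'
      have hprod : ∀ z : X, ∏ D ∈ F, e D z =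
          (∏ D ∈ F', e D z) * ∏ᶠ (D : Set X) (_ : D ∈ 𝒜), e D z := by
        intro z
        rw [finprod_mem_eq_prod_of_inter_mulSupport_eq (s := 𝒜) (t := F.filter fun D => D ∈ 𝒜)
          (fun D => e D z) (by
            ext D
            simp only [mem_inter_iff, Finset.coe_filter, mem_ofPred_eq]
            constructor
            · rintro ⟨q1, q2⟩
              exact ⟨⟨hF D q1, q1⟩, q2⟩
            · rintro ⟨⟨-, q1⟩, q2⟩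
              exact ⟨q1, q2⟩), mul_comm, Finset.prod_filter_mul_prod_filter_not]
      have hF'hol : ContMDiffAt 𝓘(ℂ, EX) 𝓘(ℂ, ℂ) ω (fun z => (∏ D ∈ F', e D z) ^ 3) x := by
        refine ContMDiffAt.pow ?_ 3
        refine contMDiffAt_finset_prod fun D hD => ?_
        obtain ⟨W, -, q1, q2, -⟩ := he D (Finset.mem_filter.1 hD).1
        exact q2 x q1
      refine ⟨fun z => (∏ D ∈ F', e D z) ^ 3 • cub (H (χ (f z), β z)), ?_, ?_⟩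
      · refine hF'hol.smul ?_
        exact (hcubm.contMDiffAt).comp x (ContMDiffAt.comp (g := H)
          (f := fun z => (χ (f z), β z)) x k1.contDiffAt.contMDiffAt hpair)
      · have h7 : ∀ᶠ z in 𝓝 x, f z ∈ χ.source :=
          hfc.continuousAt.eventually (χ.open_source.mem_nhds hχs)
        filter_upwards [h3, h2, hpair.continuousAt.eventually k2, h7] with z q1 q2 q3 q7 q4
        simp only [χ.left_inv q7, q2] at q3
        have q5 := q3 q4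
        rw [q1 q4, hprod]
        ext m
        have hm : m = ![m 0, m 1, m 2] := by
          funext i
          fin_cases i <;> rfl
        rw [smul_apply, smul_apply, hm, hcub, hcub, smul_eq_mul, smul_eq_mul, ← q5]
        ring
    near := fun a x β w h => by
      obtain ⟨hx, h1, h2, h3⟩ := h
      filter_upwards [hfc.continuousAt.eventually ((hM.isOpen a).mem_nhds hx),
        (contMDiffAt_iff_contMDiffAt_nhds (by simp)).1 h1, eventually_eventually_nhds.2 h2,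
        eventually_eventually_nhds.2 h3] with z q1 q2 q3 q4
      exact ⟨q1, q2, q3, q4⟩
    change := fun a b x ha hb β w β' w' h h' => by
      obtain ⟨-, h1, h2, h3⟩ := h
      obtain ⟨-, h1', h2', h3'⟩ := h'
      obtain ⟨G, c, k1, k2, k3⟩ := lift_change hfc hM ha hb h1 h2 h1' h2'
      refine ⟨G, c, k1, ?_⟩
      filter_upwards [k3, h3, h3', h2] with z q1 q2 q3 q4 q5
      refine ⟨q1 q5, fun q6 => ?_⟩
      rw [q2 q6, q3 q6, q1 q5]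
      ext m
      have hm : m = ![m 0, m 1, m 2] := by
        funext i
        fin_cases i <;> rfl
      rw [ContinuousMultilinearMap.compContinuousLinearMap_apply]
      have hm' : (fun i => (G : V →L[ℂ] V) (m i)) = ![G (m 0), G (m 1), G (m 2)] := by
        funext i
        fin_cases i <;> rfl
      rw [hm', hcub, q5]
      conv_lhs => rw [hm, hcub]
      rw [q5] at q4
      exact (hΦ.nat a b (f x) ⟨ha, hb⟩ G c k1.1 k2 (β z) (by rw [q4]; exact q6) _ _ _).symm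
    bound := torD_bound hM hτ hcub hfib fun a x ζ q1 q2 q3 =>
      ⟨q1, q2, q3, Eventually.of_forall fun z _ => rfl⟩ }

/-- The last clause. -/
theorem last_of (hf : ContMDiff 𝓘(ℂ, EX) 𝓘(ℂ, EY) ω f) (hM : IsTorM EX EY d T f S Q U π u)
    (hcub : ∀ φ x y z, cub φ ![x, y, z] = φ x y z)
    (hΦ : IsPhi EX EY U π u 𝒜 Φ) (hUS : ∀ a, ∀ y ∈ U a, ∀ v,
      ContMDiffAt 𝓘(ℂ, V) 𝓘(ℂ, EX) ω (u a y) v) (a : ι) {y : Y} (hy : y ∈ U a) (v : V)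
    (hv : ∀ D ∈ 𝒜, u a y v ∉ D) (hcl : ∀ D ∈ 𝒜, IsClosed D) (h𝒜 : 𝒜.Finite)
    (β : X → V) (w : X → Cub V)
    (h : LG EX f U u 𝒜 cub Φ a (u a y v) β w) :
    ∃ (G : V ≃L[ℂ] V) (c : V), ∀ᶠ z in 𝓝 v, β (u a y z) = G z + c ∧
      ∀ x₁ x₂ x₃, w (u a y z) ![G x₁, G x₂, G x₃] = Φ a y z x₁ x₂ x₃ := by
  obtain ⟨hx, h1, h2, h3⟩ := h
  have hfx : f (u a y v) = y := hM.mem a y hy v
  obtain ⟨ζ, g1, g2, g3, g4, g5⟩ := hM.chart a y hy v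
  obtain ⟨G, c, k1, k2, k3⟩ := lift_change hf.continuous hM hx hx g1 g3 h1 h2
  rw [hfx] at k1 k2
  refine ⟨G, c, ?_⟩
  have hcont : ContinuousAt (u a y) v := (hUS a y hy v).continuousAt
  have h5 : Tendsto (fun z => (y, z)) (𝓝 v) (𝓝 (y, v)) :=
    tendsto_const_nhds.prodMk_nhds tendsto_id
  have hopen : ∀ᶠ x in 𝓝 (u a y v), ∀ D ∈ 𝒜, x ∉ D := by
    rw [eventually_all_finite h𝒜]
    intro D hD
    exact (hcl D hD).isOpen_compl.mem_nhds (hv D hD)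
  filter_upwards [hcont.eventually k3, hcont.eventually h3, h5.eventually g4,
    hcont.eventually hopen] with z q1 q2 q3 q4
  have hfz : f (u a y z) = y := hM.mem a y hy z
  have q5 : β (u a y z) = G z + c := by
    rw [q1 (by rw [hfz, hfx])]
    have : ζ (u a y z) = z := q3
    rw [this]
  refine ⟨q5, fun x₁ x₂ x₃ => ?_⟩
  rw [q2 q4, hcub, hfz, q5]
  exact hΦ.nat a a y ⟨hy, hy⟩ G c k1.1 k2 z q4 _ _ _

end Glue

end Vale.Agent.P281.H969.D
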