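import Mathlib.MeasureTheory.Measure.Lebesgue.VolumeOfBalls
import Mathlib.Topology.Algebra.Group.Basic
import Mathlib.Topology.MetricSpace.ProperSpace.Lemmas

/-!
# P281, project T-Δ (helper969): the covering radius of a lattice
-/

open Set Filter Metric Complex Real MeasureTheory
open scoped Topology ENNReal

noncomputable section

namespace Vale.Agent.P281.H969.D

variable {d : ℕ}

theorem volume_ball_cd (z : Fin d → ℂ) {r : ℝ} (hr : 0 < r) :
    volume (ball z r) = ENNReal.ofReal ((π * r ^ 2) ^ d) := by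
  rw [ball_pi _ hr, volume_pi_pi]
  simp only [Complex.volume_ball, Finset.prod_const, Finset.card_univ, Fintype.card_fin]
  rw [ENNReal.ofReal_pow (by positivity), mul_comm π, ENNReal.ofReal_mul (by positivity),
    ENNReal.ofReal_pow hr.le]
  congr 2
  rw [ENNReal.ofReal, ← NNReal.coe_real_pi, Real.toNNReal_coe]

/-- **Packing**: if the volumes of the sets which are injective modulo `L` are at most `c`, and the
nonzero elements of `L` have length at least `2 ρ`, then every point is near `L`. -/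
theorem exists_near (L : AddSubgroup (Fin d → ℂ)) {ρ c : ℝ} (hρ : 0 < ρ)
    (hL : ∀ γ ∈ L, γ ≠ 0 → 2 * ρ ≤ ‖γ‖)
    (hc : ∀ A : Set (Fin d → ℂ), MeasurableSet A → (∀ z ∈ A, ∀ z' ∈ A, z - z' ∈ L → z = z') →
      volume A ≤ ENNReal.ofReal c) (z : Fin d → ℂ) :
    ∃ γ ∈ L, ‖z - γ‖ < 2 * ρ * (c / (π * ρ ^ 2) ^ d) := by
  have hdisc : DiscreteTopology L := by
    refine DiscreteTopology.of_forall_le_dist (r := 2 * ρ) (by positivity) fun a b hab => ?_
    show 2 * ρ ≤ dist a b
    rw [Subtype.dist_eq, dist_eq_norm]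
    refine hL _ (L.sub_mem a.2 b.2) fun h => hab (Subtype.ext (sub_eq_zero.1 h))
  have hclosed : IsClosed (L : Set (Fin d → ℂ)) := AddSubgroup.isClosed_of_discrete
  obtain ⟨γ₀, hγ₀, hdist⟩ := hclosed.exists_infDist_eq_dist ⟨0, L.zero_mem⟩ z
  have hmin : ∀ γ ∈ L, ‖z - γ₀‖ ≤ ‖z - γ‖ := fun γ hγ => by
    rw [← dist_eq_norm, ← dist_eq_norm, ← hdist]
    exact infDist_le_dist_of_mem hγ
  refine ⟨γ₀, hγ₀, ?_⟩
  set D := ‖z - γ₀‖ with hD
  rcases (norm_nonneg (z - γ₀)).eq_or_lt with h0 | hDpos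
  · rw [← hD] at h0
    rw [← h0]
    have h1 := hc (ball 0 ρ) measurableSet_ball fun a ha b hb hab => by
      by_contra hne
      have h2 := hL _ hab (sub_ne_zero.2 hne)
      have h3 := norm_sub_le a b
      rw [mem_ball_zero_iff] at ha hb
      linarith
    rw [volume_ball_cd _ hρ] at h1
    have h2 : 0 < (π * ρ ^ 2) ^ d := by positivity
    have h3 : 0 < c := by
      by_contra hc0
      rw [ENNReal.ofReal_of_nonpos (not_lt.1 hc0), nonpos_iff_eq_zero, ENNReal.ofReal_eq_zero] at h1
      linarith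
    positivity
  rw [← hD] at hDpos
  -- the points on the segment
  set e : Fin d → ℂ := (1 / D : ℝ) • (z - γ₀) with he
  have he1 : ‖e‖ = 1 := by
    rw [he, norm_smul, Real.norm_of_nonneg (by positivity), ← hD]
    field_simp
  have hze : z = γ₀ + D • e := by
    rw [he, smul_smul, mul_one_div_cancel hDpos.ne', one_smul]
    abel
  set K := ⌊D / (2 * ρ)⌋₊ with hK
  have hKD : (K : ℝ) * (2 * ρ) ≤ D := by
    rw [← le_div_iff₀ (by positivity)]
    exact Nat.floor_le (by positivity)
  have hKD' : D / (2 * ρ) < K + 1 := Nat.lt_floor_add_one _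
  set P : ℕ → (Fin d → ℂ) := fun k => γ₀ + ((k : ℝ) * (2 * ρ)) • e with hP
  set A : Set (Fin d → ℂ) := ⋃ k ∈ Finset.range (K + 1), ball (P k) ρ with hA
  have hPP : ∀ k l : ℕ, P k - P l = (((k : ℝ) - l) * (2 * ρ)) • e := by
    intro k l
    simp only [hP]
    rw [add_sub_add_left_eq_sub, ← sub_smul, sub_mul]
  -- the key inequality
  have hkey : ∀ k l : ℕ, k ≤ K → l ≤ k → ∀ a ∈ ball (P k) ρ, ∀ b ∈ ball (P l) ρ, a - b ∈ L →
      a = b := by
    intro k l hk hlk a ha b hb hab
    have h1 : ‖P k - P l - (a - b)‖ < 2 * ρ := by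
      have h2 : P k - P l - (a - b) = (P k - a) - (P l - b) := by abel
      rw [h2]
      have h3 := norm_sub_le (P k - a) (P l - b)
      rw [mem_ball_iff_norm'] at ha hb
      linarith
    have h2 : D ≤ ‖z - (γ₀ + (a - b))‖ := hmin _ (L.add_mem hγ₀ hab)
    have h3 : z - (γ₀ + (a - b)) = (D - ((k : ℝ) - l) * (2 * ρ)) • e + (P k - P l - (a - b)) := by
      rw [hPP]
      nth_rewrite 1 [hze]
      rw [sub_smul]
      abel
    have h4 : 0 ≤ D - ((k : ℝ) - l) * (2 * ρ) := by
      have h5 : ((k : ℝ) - l) * (2 * ρ) ≤ K * (2 * ρ) := by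
        have h6 : (k : ℝ) ≤ K := by exact_mod_cast hk
        have h7 : (0 : ℝ) ≤ l := by positivity
        nlinarith
      linarith
    have h5 : ‖z - (γ₀ + (a - b))‖ ≤ (D - ((k : ℝ) - l) * (2 * ρ)) + ‖P k - P l - (a - b)‖ := by
      rw [h3]
      refine (norm_add_le _ _).trans ?_
      rw [norm_smul, he1, mul_one, Real.norm_of_nonneg h4]
    have h6 : ((k : ℝ) - l) < 1 := by
      have h7 : ((k : ℝ) - l) * (2 * ρ) < 1 * (2 * ρ) := by linarith
      exact lt_of_mul_lt_mul_right h7 (by positivity)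
    have h7 : k = l := by
      have h8 : (k : ℝ) < l + 1 := by linarith
      have h9 : k < l + 1 := by exact_mod_cast h8
      omega
    subst h7
    by_contra hne
    have h8 := hL _ hab (sub_ne_zero.2 hne)
    rw [sub_self, zero_sub, norm_neg] at h1
    linarith
  have hinj : ∀ a ∈ A, ∀ b ∈ A, a - b ∈ L → a = b := by
    intro a ha b hb hab
    obtain ⟨k, hk, ha⟩ := mem_iUnion₂.1 ha
    obtain ⟨l, hl, hb⟩ := mem_iUnion₂.1 hb
    rw [Finset.mem_range] at hk hl
    rcases le_total l k with h | h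
    · exact hkey k l (by omega) h a ha b hb hab
    · refine (hkey l k (by omega) h b hb a ha ?_).symm
      rw [← neg_sub]
      exact L.neg_mem hab
  have hAm : MeasurableSet A := Finset.measurableSet_biUnion _ fun k _ => measurableSet_ball
  have hvol := hc A hAm hinj
  have hvolA : volume A = (K + 1 : ℕ) * ENNReal.ofReal ((π * ρ ^ 2) ^ d) := by
    rw [hA, measure_biUnion_finset _ fun k _ => measurableSet_ball]
    · simp only [volume_ball_cd _ hρ]
      rw [Finset.sum_const, Finset.card_range, nsmul_eq_mul]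
    · intro k _ l _ hkl
      refine Set.disjoint_left.2 fun a ha hb => hkl ?_
      rw [mem_ball_iff_norm'] at ha hb
      have h1 : ‖P k - P l‖ < 2 * ρ := by
        have h2 : P k - P l = (P k - a) - (P l - a) := by abel
        rw [h2]
        have h3 := norm_sub_le (P k - a) (P l - a)
        linarith
      rw [hPP, norm_smul, he1, mul_one, Real.norm_eq_abs, abs_mul, abs_of_pos (by positivity :
        0 < 2 * ρ)] at h1
      have h2 : |(k : ℝ) - l| < 1 := by
        have h3 : |(k : ℝ) - l| * (2 * ρ) < 1 * (2 * ρ) := by linarith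
        exact lt_of_mul_lt_mul_right h3 (by positivity)
      rw [abs_lt] at h2
      have h3 : (k : ℝ) < l + 1 := by linarith [h2.2]
      have h4 : (l : ℝ) < k + 1 := by linarith [h2.1]
      have h5 : k < l + 1 := by exact_mod_cast h3
      have h6 : l < k + 1 := by exact_mod_cast h4
      omega
  have hpos : 0 < (π * ρ ^ 2) ^ d := by positivity
  rw [hvolA, ← ENNReal.ofReal_natCast, ← ENNReal.ofReal_mul (by positivity)] at hvol
  have hc0 : 0 ≤ c := by
    by_contra hneg
    rw [ENNReal.ofReal_of_nonpos (not_le.1 hneg).le, nonpos_iff_eq_zero,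
      ENNReal.ofReal_eq_zero] at hvol
    have : 0 < ((K + 1 : ℕ) : ℝ) * (π * ρ ^ 2) ^ d := by positivity
    linarith
  rw [ENNReal.ofReal_le_ofReal_iff hc0] at hvol
  have h1 : ((K + 1 : ℕ) : ℝ) ≤ c / (π * ρ ^ 2) ^ d := (le_div_iff₀ hpos).2 hvol
  have h2 : D / (2 * ρ) < c / (π * ρ ^ 2) ^ d := by
    push_cast at h1
    linarith
  have h3 := (div_lt_iff₀ (by positivity : 0 < 2 * ρ)).1 h2
  linarith

end Vale.Agent.P281.H969.D
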