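import Vale.Agent.P281.H969.D.Ball
import Vale.Agent.P281.H969.D.Pack
import Mathlib.Analysis.Complex.BorelCaratheodory
import Mathlib.Analysis.Complex.OpenMapping
import Mathlib.Analysis.Complex.Liouville

/-!
# P281, project T-Δ (helper969): the bound of the third derivatives
-/

open Set Filter Metric Complex Real MeasureTheory
open scoped Topology ENNReal ComplexConjugate

noncomputable section

namespace Vale.Agent.P281.H969.D

/-! ### One variable -/

/-- A holomorphic function with nonpositive real part. -/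
theorem harnack {F : ℂ → ℂ} {ρ : ℝ} (hρ : 0 < ρ) (hF : DifferentiableOn ℂ F (ball 0 ρ))
    (hle : ∀ t ∈ ball (0 : ℂ) ρ, (F t).re ≤ 0) {t : ℂ} (ht : ‖t‖ ≤ ρ / 4) :
    -(F 0).re ≤ 3 * -(F t).re + 2 := by
  have h0 : 0 ≤ -(F 0).re := by
    have := hle 0 (mem_ball_self hρ)
    linarith
  have h1 := borelCaratheodory_zero (f := fun t => F t - F 0) (M := -(F 0).re + 1) (R := ρ) (z := t)
    (by linarith) (hF.sub_const _) (fun s hs => by
      have := hle s hs
      simp only [mem_ofPred_eq, Complex.sub_re]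
      linarith) hρ (by
      rw [mem_ball_zero_iff]
      linarith) (sub_self _)
  have h2 : 2 * (-(F 0).re + 1) * ‖t‖ / (ρ - ‖t‖) ≤ 2 / 3 * (-(F 0).re + 1) := by
    rw [div_le_iff₀ (by linarith)]
    nlinarith
  have h3 := Complex.abs_re_le_norm (F t - F 0)
  rw [Complex.sub_re] at h3
  have h4 := neg_abs_le ((F t).re - (F 0).re)
  have h5 := le_abs_self ((F t).re - (F 0).re)
  nlinarith

/-- The third derivative of a holomorphic function with nonpositive real part. -/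
theorem third_one {F : ℂ → ℂ} {ρ : ℝ} (hρ : 0 < ρ) (hF : DifferentiableOn ℂ F (ball 0 ρ))
    (hle : ∀ t ∈ ball (0 : ℂ) ρ, (F t).re ≤ 0) :
    ‖iteratedDeriv 3 F 0‖ ≤ 96 * (-(F 0).re + 1) / ρ ^ 3 := by
  have h0 : 0 ≤ -(F 0).re := by
    have := hle 0 (mem_ball_self hρ)
    linarith
  have h1 : ∀ t ∈ sphere (0 : ℂ) (ρ / 2), ‖(fun t => F t - F 0) t‖ ≤ 2 * (-(F 0).re + 1) := by
    intro t ht
    rw [mem_sphere_zero_iff_norm] at ht
    have h2 := borelCaratheodory_zero (f := fun t => F t - F 0) (M := -(F 0).re + 1) (R := ρ)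
      (z := t) (by linarith) (hF.sub_const _) (fun s hs => by
        have := hle s hs
        simp only [mem_ofPred_eq, Complex.sub_re]
        linarith) hρ (by
        rw [mem_ball_zero_iff]
        linarith) (sub_self _)
    refine h2.trans (le_of_eq ?_)
    rw [ht]
    field_simp
    ring
  have h2 : DiffContOnCl ℂ (fun t => F t - F 0) (ball 0 (ρ / 2)) := by
    refine ((hF.sub_const _).mono ?_).diffContOnCl
    rw [closure_ball _ (by positivity)]
    exact closedBall_subset_ball (by linarith)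
  have h3 := norm_iteratedDeriv_le_of_forall_mem_sphere_norm_le 3 (by positivity) h2 h1
  have h4 : iteratedDeriv 3 (fun t => F t - F 0) 0 = iteratedDeriv 3 F 0 := by
    have h5 : deriv (fun t => F t - F 0) = deriv F := funext fun t => deriv_sub_const _
    rw [iteratedDeriv_succ' (f := fun t => F t - F 0), iteratedDeriv_succ' (f := F), h5]
  rw [h4] at h3
  refine h3.trans (le_of_eq ?_)
  have h5 : ((Nat.factorial 3 : ℕ) : ℝ) = 6 := by norm_num [Nat.factorial]
  rw [h5]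
  field_simp
  ring

/-- Analytic functions with constant real part. -/
theorem eventually_const {D : ℂ → ℂ} (hD : AnalyticAt ℂ D 0) {c : ℝ}
    (h : ∀ᶠ t in 𝓝 (0 : ℂ), (D t).re = c) : ∀ᶠ t in 𝓝 (0 : ℂ), D t = D 0 := by
  rcases hD.eventually_constant_or_nhds_le_map_nhds with h1 | h1
  · exact h1
  · exfalso
    have h2 : ∀ᶠ w in 𝓝 (D 0), w.re = c := h1 (Filter.eventually_map.2 h)
    have h3 : Tendsto (fun ε : ℝ => D 0 + ε) (𝓝 0) (𝓝 (D 0)) := by
      have : Continuous fun ε : ℝ => D 0 + (ε : ℂ) := by fun_prop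
      simpa using this.tendsto 0
    have h4 := h3.eventually h2
    obtain ⟨ε, hε, hball⟩ := Metric.eventually_nhds_iff.1 h4
    have h5 := hball (y := ε / 2) (by rw [dist_zero_right, Real.norm_of_nonneg] <;> linarith)
    have h6 := hball (y := 0) (by simpa using hε)
    simp at h5 h6
    linarith

/-! ### Several variables -/

variable {d : ℕ}

/-- A point where `lam` is not too small. -/
theorem IsQuasi.exists_pt {H : Matrix (Fin d) (Fin d) ℂ} (hH : H.IsHermitian)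
    {lam : (Fin d → ℂ) → ℝ} (h : IsQuasi H lam) (hm : Measurable lam) (hle : ∀ z, lam z ≤ 1)
    (h0 : ∀ z, 0 ≤ lam z) {z₀ : Fin d → ℂ} (hz₀ : lam z₀ = 1) {C : ℝ} (hC0 : 0 ≤ C)
    (hw : ∀ w, 0 ≤ (hf H w w).re) (hC : ∀ w, (hf H w w).re ≤ C * ‖w‖ ^ 2)
    (L : AddSubgroup (Fin d → ℂ)) [Countable L] (hper : ∀ z, ∀ γ ∈ L, lam (z + γ) = lam z)
    {ρ c : ℝ} (hρ : 0 < ρ) (hL : ∀ γ ∈ L, γ ≠ 0 → 2 * ρ ≤ ‖γ‖)
    (hc : ∀ A : Set (Fin d → ℂ), MeasurableSet A → (∀ z ∈ A, ∀ z' ∈ A, z - z' ∈ L → z = z') →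
      volume A ≤ ENNReal.ofReal c) (z₁ : Fin d → ℂ) :
    ∃ z ∈ ball z₁ (ρ / 4), -Real.log (lam z) ≤
      C * (2 * ρ * (c / (π * ρ ^ 2) ^ d)) ^ 2 *
        (π * (2 * ρ * (c / (π * ρ ^ 2) ^ d)) ^ 2) ^ d / (π * (ρ / 4) ^ 2) ^ d + 1 := by
  set R := 2 * ρ * (c / (π * ρ ^ 2) ^ d) with hR
  obtain ⟨γ₀, -, hγ₀⟩ := exists_near L hρ hL hc 0
  have hRpos : 0 < R := (norm_nonneg _).trans_lt hγ₀
  set m := C * R ^ 2 * (π * R ^ 2) ^ d / (π * (ρ / 4) ^ 2) ^ d with hm0
  by_contra hcon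
  push Not at hcon
  have h1 := h.lintegral_le_of_inj hH hm hle h0 hz₀ hC0 hw hC L hper (exists_near L hρ hL hc)
    (A := ball z₁ (ρ / 4)) measurableSet_ball fun z hz z' hz' hzz => by
      by_contra hne
      have h2 := hL _ hzz (sub_ne_zero.2 hne)
      have h3 := norm_sub_le (z - z₁) (z' - z₁)
      rw [mem_ball_iff_norm] at hz hz'
      rw [sub_sub_sub_cancel_right] at h3
      linarith
  have h2 : ENNReal.ofReal (m + 1) * volume (ball z₁ (ρ / 4)) ≤
      ∫⁻ w in ball z₁ (ρ / 4), ENNReal.ofReal (-Real.log (lam w)) := by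
    rw [← setLIntegral_const]
    exact setLIntegral_mono' measurableSet_ball fun z hz => ENNReal.ofReal_le_ofReal (hcon z hz).le
  have h3 := h2.trans h1
  have hp1 : 0 < (π * (ρ / 4) ^ 2) ^ d := by positivity
  have hm1 : 0 ≤ m := by positivity
  rw [volume_ball_cd _ (by positivity : 0 < ρ / 4), volume_ball_cd _ hRpos,
    ← ENNReal.ofReal_mul (by positivity), ← ENNReal.ofReal_mul (by positivity),
    ENNReal.ofReal_le_ofReal_iff (by positivity)] at h3
  have h4 : m * (π * (ρ / 4) ^ 2) ^ d = C * R ^ 2 * (π * R ^ 2) ^ d := by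
    rw [hm0, div_mul_cancel₀ _ hp1.ne']
  nlinarith

/-- **The bound of the third derivatives** of `log θ`, `lam = |θ|² e^(-H(z, z))`. -/
theorem IsQuasi.third_le {H : Matrix (Fin d) (Fin d) ℂ} (hH : H.IsHermitian)
    {lam : (Fin d → ℂ) → ℝ} (h : IsQuasi H lam) (hm : Measurable lam) (hle : ∀ z, lam z ≤ 1)
    (h0 : ∀ z, 0 ≤ lam z) {z₀ : Fin d → ℂ} (hz₀ : lam z₀ = 1) {C : ℝ} (hC0 : 0 ≤ C)
    (hw : ∀ w, 0 ≤ (hf H w w).re) (hC : ∀ w, (hf H w w).re ≤ C * ‖w‖ ^ 2)
    (L : AddSubgroup (Fin d → ℂ)) [Countable L] (hper : ∀ z, ∀ γ ∈ L, lam (z + γ) = lam z)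
    {ρ c : ℝ} (hρ : 0 < ρ) (hρ1 : ρ ≤ 1) (hL : ∀ γ ∈ L, γ ≠ 0 → 2 * ρ ≤ ‖γ‖)
    (hc : ∀ A : Set (Fin d → ℂ), MeasurableSet A → (∀ z ∈ A, ∀ z' ∈ A, z - z' ∈ L → z = z') →
      volume A ≤ ENNReal.ofReal c) {z₁ : Fin d → ℂ} (hz₁ : ∀ z ∈ ball z₁ ρ, lam z ≠ 0)
    {s : (Fin d → ℂ) → ℂ} (hs : AnalyticAt ℂ s z₁)
    (hlam : ∀ᶠ z in 𝓝 z₁, lam z = Real.exp (2 * (s z).re - (hf H z z).re)) {w : Fin d → ℂ}
    (hw1 : ‖w‖ ≤ 1) :
    ‖iteratedDeriv 3 (fun t : ℂ => s (z₁ + t • w)) 0‖ ≤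
      96 * (3 / 2 * (C * (2 * ρ * (c / (π * ρ ^ 2) ^ d)) ^ 2 *
        (π * (2 * ρ * (c / (π * ρ ^ 2) ^ d)) ^ 2) ^ d / (π * (ρ / 4) ^ 2) ^ d + 1 + C) + 3) /
          ρ ^ 3 := by
  -- the functions on discs
  have hdisc : ∀ w : Fin d → ℂ, ‖w‖ ≤ 1 → ∃ F : ℂ → ℂ, DifferentiableOn ℂ F (ball 0 ρ) ∧
      (∀ t ∈ ball (0 : ℂ) ρ, (F t).re ≤ 0) ∧ ∀ t ∈ ball (0 : ℂ) ρ,
        (F t).re = (Real.log (lam (z₁ + t • w)) + ‖t‖ ^ 2 * (hf H w w).re - C) / 2 := by
    intro w hw1
    have hball : ∀ t ∈ ball (0 : ℂ) ρ, z₁ + t • w ∈ ball z₁ ρ := by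
      intro t ht
      rw [mem_ball_zero_iff] at ht
      rw [mem_ball_iff_norm, add_sub_cancel_left, norm_smul]
      nlinarith [norm_nonneg t, norm_nonneg w]
    have hharm : InnerProductSpace.HarmonicOnNhd (fun t : ℂ =>
        (Real.log (lam (z₁ + t • w)) + ‖t‖ ^ 2 * (hf H w w).re - C) / 2) (ball (0 : ℂ) ρ) := by
      intro t ht
      obtain ⟨θ, h1, h2⟩ := h.shift hH z₁ (z₁ + t • w)
      have h3 : AnalyticAt ℂ (fun t : ℂ => z₁ + t • w) t := by fun_prop
      have h10 : AnalyticAt ℂ (fun t : ℂ => θ (z₁ + t • w)) t :=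
        AnalyticAt.comp (g := θ) (f := fun t : ℂ => z₁ + t • w) h1 h3
      have h4 : AnalyticAt ℂ (fun t : ℂ => θ (z₁ + t • w) * Complex.exp (-(C / 2 : ℝ))) t :=
        h10.mul analyticAt_const
      have h5 := h3.continuousAt.eventually h2
      have h6 : θ (z₁ + t • w) ≠ 0 := by
        intro h7
        have h8 := h5.self_of_nhds
        rw [h7] at h8
        simp at h8
        exact hz₁ _ (hball t ht) h8
      have h7 := h4.harmonicAt_log_norm (mul_ne_zero h6 (Complex.exp_ne_zero _))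
      refine (InnerProductSpace.harmonicAt_congr_nhds ?_).2 h7
      have h8 := h10.continuousAt.eventually_ne h6
      filter_upwards [h5, h8] with u hu hu0
      show (Real.log (lam (z₁ + u • w)) + ‖u‖ ^ 2 * (hf H w w).re - C) / 2 =
        Real.log ‖θ (z₁ + u • w) * Complex.exp (-(C / 2 : ℝ))‖
      rw [hu, add_sub_cancel_left, hf_smul_smul, Complex.re_ofReal_mul, norm_mul,
        Complex.norm_exp, Real.log_mul (pow_ne_zero _ (norm_ne_zero_iff.2 hu0))
          (Real.exp_pos _).ne', Real.log_mul (norm_ne_zero_iff.2 hu0) (Real.exp_pos _).ne',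
        Real.log_exp, Real.log_exp, Real.log_pow]
      simp
      ring
    obtain ⟨F, hF, hFr⟩ := hharm.exists_analyticOnNhd_ball_re_eq
    refine ⟨F, fun t ht => (hF t ht).differentiableAt.differentiableWithinAt, fun t ht => ?_,
      fun t ht => hFr ht⟩
    have h1 : (F t).re = (Real.log (lam (z₁ + t • w)) + ‖t‖ ^ 2 * (hf H w w).re - C) / 2 := hFr ht
    rw [h1]
    have h2 : Real.log (lam (z₁ + t • w)) ≤ 0 := Real.log_nonpos (h0 _) (hle _)
    have h3 : ‖t‖ ^ 2 * (hf H w w).re ≤ C := by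
      rw [mem_ball_zero_iff] at ht
      have h4 : ‖t‖ ^ 2 ≤ 1 := by nlinarith [norm_nonneg t]
      have h5 : (hf H w w).re ≤ C := (hC w).trans
        (mul_le_of_le_one_right hC0 (pow_le_one₀ (norm_nonneg w) hw1))
      nlinarith [hw w]
    linarith
  obtain ⟨F, hF, hFle, hFr⟩ := hdisc w hw1
  -- the value at the centre
  have hval : -(F 0).re ≤ 3 / 2 * (C * (2 * ρ * (c / (π * ρ ^ 2) ^ d)) ^ 2 *
        (π * (2 * ρ * (c / (π * ρ ^ 2) ^ d)) ^ 2) ^ d / (π * (ρ / 4) ^ 2) ^ d + 1 + C) + 2 := by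
    obtain ⟨z, hz, hzle⟩ := h.exists_pt hH hm hle h0 hz₀ hC0 hw hC L hper hρ hL hc z₁
    set w' : Fin d → ℂ := ((4 / ρ : ℝ) : ℂ) • (z - z₁) with hw'
    have hw'1 : ‖w'‖ ≤ 1 := by
      rw [mem_ball_iff_norm] at hz
      rw [hw', norm_smul, Complex.norm_real, Real.norm_of_nonneg (by positivity)]
      have h1 : 4 / ρ * ‖z - z₁‖ ≤ 4 / ρ * (ρ / 4) := mul_le_mul_of_nonneg_left hz.le (by positivity)
      have h2 : 4 / ρ * (ρ / 4) = 1 := by field_simp
      linarith
    obtain ⟨F', hF', hFle', hFr'⟩ := hdisc w' hw'1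
    have ht : ‖((ρ / 4 : ℝ) : ℂ)‖ = ρ / 4 := by
      rw [Complex.norm_real, Real.norm_of_nonneg (by positivity)]
    have h1 := harnack hρ hF' hFle' (t := ((ρ / 4 : ℝ) : ℂ)) ht.le
    have h2 := hFr' ((ρ / 4 : ℝ) : ℂ) (by rw [mem_ball_zero_iff, ht]; linarith)
    have h3 : z₁ + ((ρ / 4 : ℝ) : ℂ) • w' = z := by
      rw [hw', smul_smul, ← Complex.ofReal_mul, show ρ / 4 * (4 / ρ) = 1 by field_simp,
        Complex.ofReal_one, one_smul]
      abel
    rw [h3] at h2
    have h4 := hFr 0 (mem_ball_self hρ)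
    have h5 := hFr' 0 (mem_ball_self hρ)
    simp only [zero_smul, add_zero, norm_zero, ne_eq, OfNat.ofNat_ne_zero, not_false_eq_true,
      zero_pow, zero_mul] at h4 h5
    have h6 : 0 ≤ ‖((ρ / 4 : ℝ) : ℂ)‖ ^ 2 * (hf H w' w').re := mul_nonneg (by positivity) (hw w')
    rw [h4, ← h5]
    linarith
  -- comparison with `s`
  have hcmp : iteratedDeriv 3 F 0 = iteratedDeriv 3 (fun t : ℂ => s (z₁ + t • w)) 0 := by
    have hline : AnalyticAt ℂ (fun t : ℂ => z₁ + t • w) 0 := by fun_prop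
    have hl0 : z₁ + (0 : ℂ) • w = z₁ := by simp
    have hG : AnalyticAt ℂ (fun t : ℂ => s (z₁ + t • w)) 0 := by
      refine AnalyticAt.comp (g := s) (f := fun t : ℂ => z₁ + t • w) ?_ hline
      rw [hl0]
      exact hs
    have hFa : AnalyticAt ℂ F 0 := hF.analyticAt (ball_mem_nhds 0 hρ)
    have hD : AnalyticAt ℂ (fun t : ℂ => F t - s (z₁ + t • w) + t * hf H w z₁) 0 :=
      (hFa.sub hG).add (analyticAt_id.mul analyticAt_const)
    have hDre : ∀ᶠ t in 𝓝 (0 : ℂ), (F t - s (z₁ + t • w) + t * hf H w z₁).re =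
        -((hf H z₁ z₁).re + C) / 2 := by
      have h1 : ∀ᶠ t in 𝓝 (0 : ℂ), lam (z₁ + t • w) =
          Real.exp (2 * (s (z₁ + t • w)).re - (hf H (z₁ + t • w) (z₁ + t • w)).re) := by
        have h0 : Tendsto (fun t : ℂ => z₁ + t • w) (𝓝 0) (𝓝 z₁) := by
          have h7 := hline.continuousAt.tendsto
          rwa [hl0] at h7
        exact h0.eventually hlam
      filter_upwards [h1, ball_mem_nhds 0 hρ] with t ht htb
      have h2 := hFr t htb
      rw [ht, Real.log_exp] at h2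
      have h3 := congrArg Complex.re (hf_sub H (z₁ + t • w) z₁)
      rw [add_sub_cancel_left, hf_smul_smul, Complex.re_ofReal_mul] at h3
      have h4 : hf H (z₁ + t • w) z₁ = hf H z₁ z₁ + t * hf H w z₁ := by
        simp only [hf, Pi.add_apply, Pi.smul_apply, smul_eq_mul, Finset.mul_sum,
          ← Finset.sum_add_distrib]
        refine Finset.sum_congr rfl fun i _ => Finset.sum_congr rfl fun j _ => ?_
        ring
      have h5 : (hf H z₁ (z₁ + t • w)).re = (hf H (z₁ + t • w) z₁).re := by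
        rw [hf_conj hH (z₁ + t • w) z₁, Complex.conj_re]
      simp only [Complex.sub_re, Complex.add_re] at h3
      rw [h5, h4, Complex.add_re] at h3
      simp only [Complex.add_re, Complex.sub_re]
      rw [h2]
      linarith
    have h1 := eventually_const hD hDre
    set κ := hf H w z₁ with hκ
    set D₀ := F 0 - s (z₁ + (0 : ℂ) • w) + 0 * κ with hD₀
    have h2 : F =ᶠ[𝓝 0] fun t => s (z₁ + t • w) - t * κ + D₀ := by
      filter_upwards [h1] with t ht
      rw [← ht]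
      ring
    have h3 : deriv F =ᶠ[𝓝 0] fun t => deriv (fun t : ℂ => s (z₁ + t • w)) t - κ := by
      refine h2.deriv.trans ?_
      filter_upwards [hG.eventually_analyticAt] with t ht
      have h5 : HasDerivAt (fun t : ℂ => s (z₁ + t • w) - t * κ + D₀)
          (deriv (fun t : ℂ => s (z₁ + t • w)) t - 1 * κ) t :=
        ((ht.differentiableAt.hasDerivAt).sub ((hasDerivAt_id t).mul_const κ)).add_const D₀
      rw [h5.deriv, one_mul]
    have h4 : deriv (deriv F) =ᶠ[𝓝 0] deriv (deriv fun t : ℂ => s (z₁ + t • w)) := by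
      refine h3.deriv.trans ?_
      filter_upwards with t
      exact deriv_sub_const _
    have h5 : ∀ G : ℂ → ℂ, iteratedDeriv 3 G 0 = deriv (deriv (deriv G)) 0 := by
      intro G
      rw [iteratedDeriv_succ', iteratedDeriv_succ', iteratedDeriv_one]
    rw [h5, h5]
    exact h4.deriv.self_of_nhds
  rw [← hcmp]
  refine (third_one hρ hF hFle).trans (div_le_div_of_nonneg_right
    (mul_le_mul_of_nonneg_left ?_ (by norm_num)) (by positivity))
  linarith

end Vale.Agent.P281.H969.D
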